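import Mathlib

namespace Vale.Agent.Lib.P322

/-- Probability that `n` independent binary symmetric channels with crossover probability `e`
turn the input word `x` into the output word `y`. -/
noncomputable def bsc (n : ℕ) (e : ℝ) (x y : Fin n → Bool) : ℝ :=
  ∏ i, if x i = y i then 1 - e else e

/-- Joint law of `(f X, Y)`: the probability that `f X = b` and `Y = y`, where `X` is uniform on
the cube and `Y` is the output of the noisy channel on input `X`. -/
noncomputable def joint (n : ℕ) (e : ℝ) (f : (Fin n → Bool) → Bool) (b : Bool)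
    (y : Fin n → Bool) : ℝ :=
  ∑ x, if f x = b then (1 / 2 : ℝ) ^ n * bsc n e x y else 0

/-- Mutual information, in bits, of a pair of random variables with joint probability mass
function `P`. -/
noncomputable def mutualInfo {α β : Type} [Fintype α] [Fintype β] (P : α → β → ℝ) : ℝ :=
  ∑ a, ∑ b, P a b * Real.logb 2 (P a b / ((∑ b', P a b') * (∑ a', P a' b)))

/-- Binary entropy in bits. -/
noncomputable def h2 (p : ℝ) : ℝ := Real.binEntropy p / Real.log 2

/-- The sign of a bit: `true` is read as `1` and `false` as `-1`. -/
noncomputable def sgn (b : Bool) : ℝ := if b = true then 1 else -1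

/-- The mean `E f(X)` of a Boolean function read as a sign, for `X` uniform on the cube. -/
noncomputable def fmean (n : ℕ) (f : (Fin n → Bool) → Bool) : ℝ :=
  (∑ x, sgn (f x)) / 2 ^ n

/-- The degree-one Fourier coefficient `E[f(X) X_j]` of a Boolean function read as a sign. -/
noncomputable def fcoef (n : ℕ) (f : (Fin n → Bool) → Bool) (j : Fin n) : ℝ :=
  (∑ x, sgn (f x) * sgn (x j)) / 2 ^ n

/-- Fourier weight of `f` above degree one, written through Parseval as
`1 - (E f)^2 - sum_j (E[f(X) X_j])^2`. -/
noncomputable def highWeight (n : ℕ) (f : (Fin n → Bool) → Bool) : ℝ :=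
  1 - fmean n f ^ 2 - ∑ j, fcoef n f j ^ 2

/-- Share of the non-constant Fourier weight of `f` carried by the single coordinate `i`:
`(E[f(X) X_i])^2 / (1 - (E f)^2)`. -/
noncomputable def coordShare (n : ℕ) (f : (Fin n → Bool) → Bool) (i : Fin n) : ℝ :=
  fcoef n f i ^ 2 / (1 - fmean n f ^ 2)

end Vale.Agent.Lib.P322
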