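import Mathlib

namespace Vale.Agent.Lib.P322

open Real

/-- The function `t log t`. -/
noncomputable def eta (t : ℝ) : ℝ := t * Real.log t

/-- `psi t = ((1+t)/2) log (1+t) + ((1-t)/2) log (1-t)`. -/
noncomputable def psi (t : ℝ) : ℝ :=
  (1 + t) / 2 * Real.log (1 + t) + (1 - t) / 2 * Real.log (1 - t)

lemma psi_zero : psi 0 = 0 := by simp [psi]

lemma psi_neg (t : ℝ) : psi (-t) = psi t := by
  unfold psi
  have h1 : (1 : ℝ) + -t = 1 - t := by ring
  have h2 : (1 : ℝ) - -t = 1 + t := by ring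
  rw [h1, h2]; ring

lemma psi_one : psi 1 = Real.log 2 := by
  unfold psi; norm_num

lemma hasSum_psi {t : ℝ} (ht : |t| < 1) :
    HasSum (fun k : ℕ => t ^ (2 * k + 2) / ((2 * (k : ℝ) + 1) * (2 * (k : ℝ) + 2))) (psi t) := by
  have h1 := Real.hasSum_pow_div_log_of_abs_lt_one ht
  have h2 := Real.hasSum_pow_div_log_of_abs_lt_one (x := -t) (by simpa using ht)
  obtain ⟨c, hc⟩ : ∃ c : ℕ → ℝ, c = fun n : ℕ => -((1 + t) / 2) * ((-t) ^ (n + 1) / ((n : ℝ) + 1))
      + -((1 - t) / 2) * (t ^ (n + 1) / ((n : ℝ) + 1)) := ⟨_, rfl⟩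
  have h3 : HasSum c (psi t) := by
    have h := (h2.mul_left (-((1 + t) / 2))).add (h1.mul_left (-((1 - t) / 2)))
    have hv : -((1 + t) / 2) * -Real.log (1 - -t) + -((1 - t) / 2) * -Real.log (1 - t) = psi t := by
      unfold psi
      have e1 : (1 : ℝ) - -t = 1 + t := by ring
      rw [e1]; ring
    rw [hv] at h
    rw [hc]
    exact h
  have he : Summable (fun k : ℕ => c (2 * k)) := h3.summable.comp_injective
    (show Function.Injective (fun k : ℕ => 2 * k) from fun a b h => by simpa using h)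
  have ho : Summable (fun k : ℕ => c (2 * k + 1)) := h3.summable.comp_injective
    (show Function.Injective (fun k : ℕ => 2 * k + 1) from fun a b h => by simpa using h)
  have hsum : ∑' k, c (2 * k) + ∑' k, c (2 * k + 1) = ∑' k, c k := tsum_even_add_odd (f := c) he ho
  have key : HasSum (fun k : ℕ => c (2 * k) + c (2 * k + 1)) (psi t) := by
    have := he.hasSum.add ho.hasSum
    rw [hsum, h3.tsum_eq] at this
    exact this
  have hfun : (fun k : ℕ => t ^ (2 * k + 2) / ((2 * (k : ℝ) + 1) * (2 * (k : ℝ) + 2))) =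
      (fun k : ℕ => c (2 * k) + c (2 * k + 1)) := by
    funext k
    rw [hc]
    have hk1 : (2 * (k : ℝ) + 1) ≠ 0 := by positivity
    have hk2 : (2 * (k : ℝ) + 2) ≠ 0 := by positivity
    have p1 : (-t) ^ (2 * k + 1) = -(t ^ (2 * k + 1)) := Odd.neg_pow ⟨k, rfl⟩ t
    have p2 : (-t) ^ (2 * k + 1 + 1) = t ^ (2 * k + 1 + 1) := Even.neg_pow ⟨k + 1, by ring⟩ t
    simp only []
    push_cast
    rw [p1, p2]
    have e2 : (2 * (k : ℝ) + 1 + 1) = 2 * (k : ℝ) + 2 := by ring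
    rw [e2]
    field_simp
    ring
  rw [hfun]
  exact key

lemma psi_ge_of_abs_lt {t : ℝ} (ht : |t| < 1) : t ^ 2 / 2 ≤ psi t := by
  have h := hasSum_psi ht
  have := le_hasSum h 0 (fun j _ => by
    have : 0 ≤ t ^ (2 * j + 2) := by
      have : t ^ (2 * j + 2) = (t ^ (j + 1)) ^ 2 := by ring
      rw [this]; positivity
    positivity)
  simpa using this

lemma psi_mul_le_of_lt {r s : ℝ} (hr0 : 0 ≤ r) (hr1 : r < 1) (hs : |s| ≤ 1) :
    psi (r * s) ≤ s ^ 2 * psi r := by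
  have hrs : |r * s| < 1 := by
    rw [abs_mul, abs_of_nonneg hr0]
    calc r * |s| ≤ r * 1 := mul_le_mul_of_nonneg_left hs hr0
      _ < 1 := by linarith
  have h1 := hasSum_psi hrs
  have h2 := (hasSum_psi (show |r| < 1 by rw [abs_of_nonneg hr0]; exact hr1)).mul_left (s ^ 2)
  refine hasSum_le (fun k => ?_) h1 h2
  have hs2 : s ^ 2 ≤ 1 := by
    have := sq_abs s
    nlinarith [abs_nonneg s]
  have hsk : (s ^ 2) ^ k ≤ 1 := pow_le_one₀ (sq_nonneg s) hs2
  have hpos : (0 : ℝ) < (2 * (k : ℝ) + 1) * (2 * (k : ℝ) + 2) := by positivity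
  have e : (r * s) ^ (2 * k + 2) = r ^ (2 * k + 2) * (s ^ 2 * (s ^ 2) ^ k) := by ring
  rw [e, ← mul_div_assoc]
  apply div_le_div_of_nonneg_right _ hpos.le
  have hr : 0 ≤ r ^ (2 * k + 2) := by positivity
  have : s ^ 2 * (s ^ 2) ^ k ≤ s ^ 2 := by
    calc s ^ 2 * (s ^ 2) ^ k ≤ s ^ 2 * 1 := mul_le_mul_of_nonneg_left hsk (sq_nonneg s)
      _ = s ^ 2 := by ring
  nlinarith

lemma psi_eq {e : ℝ} (h0 : 0 ≤ e) (h1 : e ≤ 1) :
    psi (1 - 2 * e) = Real.log 2 - Real.binEntropy e := by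
  unfold psi Real.binEntropy
  have a1 : (1 + (1 - 2 * e)) / 2 = 1 - e := by ring
  have a2 : (1 - (1 - 2 * e)) / 2 = e := by ring
  have a3 : 1 + (1 - 2 * e) = 2 * (1 - e) := by ring
  have a4 : 1 - (1 - 2 * e) = 2 * e := by ring
  rw [a1, a2, a3, a4, Real.log_inv, Real.log_inv]
  rcases eq_or_lt_of_le h0 with h | h
  · subst h; simp
  rcases eq_or_lt_of_le h1 with h' | h'
  · subst h'; simp
  rw [Real.log_mul (by norm_num) (by linarith), Real.log_mul (by norm_num) (by linarith)]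
  ring

lemma psi_le_log_two {r : ℝ} (h0 : 0 ≤ r) (h1 : r ≤ 1) : psi r ≤ Real.log 2 := by
  have h := psi_eq (e := (1 - r) / 2) (by linarith) (by linarith)
  have e : 1 - 2 * ((1 - r) / 2) = r := by ring
  rw [e] at h
  rw [h]
  have := Real.binEntropy_nonneg (p := (1 - r) / 2) (by linarith) (by linarith)
  linarith

lemma psi_le_sq_mul_log_two {s : ℝ} (hs : |s| ≤ 1) : psi s ≤ s ^ 2 * Real.log 2 := by
  rcases eq_or_lt_of_le hs with h | h
  · have hs2 : s ^ 2 = 1 := by rw [← sq_abs, h]; norm_num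
    rcases abs_eq (by norm_num : (0 : ℝ) ≤ 1) |>.mp h with h' | h'
    · rw [h', psi_one]; norm_num
    · rw [h', psi_neg, psi_one]; norm_num
  have hlim : Filter.Tendsto (fun r : ℝ => psi s * r ^ 2) (nhdsWithin 1 (Set.Iio 1))
      (nhds (psi s * 1 ^ 2)) :=
    ((continuous_const.mul (continuous_pow 2)).tendsto 1).mono_left nhdsWithin_le_nhds
  have hev : ∀ᶠ r in nhdsWithin 1 (Set.Iio 1), psi s * r ^ 2 ≤ s ^ 2 * Real.log 2 := by
    have hmem : Set.Ioo (max |s| (1 / 2)) 1 ∈ nhdsWithin (1 : ℝ) (Set.Iio 1) :=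
      Ioo_mem_nhdsLT (max_lt h (by norm_num))
    filter_upwards [hmem] with r hr
    have hr1 : r < 1 := hr.2
    have hrs : |s| < r := lt_of_le_of_lt (le_max_left _ _) hr.1
    have hr0 : 0 < r := lt_of_lt_of_le (by norm_num) (le_of_lt (lt_of_le_of_lt (le_max_right _ _) hr.1))
    have hq : |s / r| ≤ 1 := by
      rw [abs_div, abs_of_pos hr0, div_le_one hr0]; exact hrs.le
    have h1 := psi_mul_le_of_lt hr0.le hr1 hq
    have e : r * (s / r) = s := by field_simp
    rw [e] at h1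
    have h2 := psi_le_log_two hr0.le hr1.le
    have h3 : (s / r) ^ 2 * psi r ≤ (s / r) ^ 2 * Real.log 2 :=
      mul_le_mul_of_nonneg_left h2 (sq_nonneg _)
    have h4 : psi s * r ^ 2 ≤ (s / r) ^ 2 * Real.log 2 * r ^ 2 :=
      mul_le_mul_of_nonneg_right (h1.trans h3) (sq_nonneg r)
    have e2 : (s / r) ^ 2 * Real.log 2 * r ^ 2 = s ^ 2 * Real.log 2 := by field_simp
    rw [e2] at h4
    exact h4
  have := le_of_tendsto hlim hev
  simpa using this

/-- Key inequality: `psi (r s) ≤ s^2 psi r` for `0 ≤ r ≤ 1`, `|s| ≤ 1`. -/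
lemma psi_mul_le {r s : ℝ} (hr0 : 0 ≤ r) (hr1 : r ≤ 1) (hs : |s| ≤ 1) :
    psi (r * s) ≤ s ^ 2 * psi r := by
  rcases eq_or_lt_of_le hr1 with h | h
  · subst h
    rw [one_mul, psi_one]
    exact psi_le_sq_mul_log_two hs
  · exact psi_mul_le_of_lt hr0 h hs

lemma psi_ge {t : ℝ} (ht : |t| ≤ 1) : t ^ 2 / 2 ≤ psi t := by
  rcases eq_or_lt_of_le ht with h | h
  · have hs2 : t ^ 2 = 1 := by rw [← sq_abs, h]; norm_num
    have hl := Real.log_two_gt_d9
    rcases abs_eq (by norm_num : (0 : ℝ) ≤ 1) |>.mp h with h' | h'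
    · rw [h', psi_one]; norm_num; linarith
    · rw [h', psi_neg, psi_one]; norm_num; linarith
  · exact psi_ge_of_abs_lt h

lemma psi_nonneg {t : ℝ} (ht : |t| ≤ 1) : 0 ≤ psi t :=
  le_trans (by positivity) (psi_ge ht)

lemma eta_zero : eta 0 = 0 := by simp [eta]

lemma eta_one : eta 1 = 0 := by simp [eta]

lemma eta_mul {m x : ℝ} (hm : 0 < m) (hx : 0 ≤ x) :
    eta (m * x) = m * x * Real.log m + m * eta x := by
  unfold eta
  rcases eq_or_lt_of_le hx with h | h
  · subst h; simp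
  · rw [Real.log_mul hm.ne' h.ne']; ring

lemma psi_eq_eta (t : ℝ) : psi t = (eta (1 + t) + eta (1 - t)) / 2 := by
  unfold psi eta; ring

/-- The Jensen gap of `eta` at `m ± d` is `m * psi (d / m)`. -/
lemma eta_gap {m d : ℝ} (hm : 0 < m) (hd : |d| ≤ m) :
    (eta (m + d) + eta (m - d)) / 2 - eta m = m * psi (d / m) := by
  have hd' := abs_le.mp hd
  have h1 : 0 ≤ 1 + d / m := by
    have : -1 ≤ d / m := by rw [le_div_iff₀ hm]; linarith
    linarith
  have h2 : 0 ≤ 1 - d / m := by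
    have : d / m ≤ 1 := by rw [div_le_one hm]; linarith
    linarith
  have e1 : m + d = m * (1 + d / m) := by field_simp
  have e2 : m - d = m * (1 - d / m) := by field_simp
  rw [e1, e2, eta_mul hm h1, eta_mul hm h2, psi_eq_eta]
  unfold eta
  ring

end Vale.Agent.Lib.P322
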