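import Mathlib
import Vale.Agent.Lib.P322.Defs
import Vale.Agent.Lib.P322.Psi

namespace Vale.Agent.Lib.P322

open Finset

/-- Mean of a real function on the cube. -/
noncomputable def avg (n : ℕ) (u : (Fin n → Bool) → ℝ) : ℝ := (1 / 2 : ℝ) ^ n * ∑ x, u x

/-- The noise operator. -/
noncomputable def nop (n : ℕ) (e : ℝ) (u : (Fin n → Bool) → ℝ) (y : Fin n → Bool) : ℝ :=
  ∑ x, bsc n e x y * u x

/-- Entropy functional `E[u log u] - E[u] log E[u]`. -/
noncomputable def ent (n : ℕ) (u : (Fin n → Bool) → ℝ) : ℝ :=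
  avg n (fun x => eta (u x)) - eta (avg n u)

lemma sum_cube_succ (n : ℕ) (u : (Fin (n + 1) → Bool) → ℝ) :
    ∑ x, u x = ∑ x : Fin n → Bool, u (Fin.cons true x) +
      ∑ x : Fin n → Bool, u (Fin.cons false x) := by
  rw [← (Fin.consEquiv (fun _ => Bool)).sum_comp, Fintype.sum_prod_type]
  simp [Fin.consEquiv]

lemma sum_cube_zero (u : (Fin 0 → Bool) → ℝ) : ∑ x, u x = u (fun i => i.elim0) := by
  rw [Fintype.sum_eq_single (fun i => i.elim0)]
  intro x hx
  exact absurd (Subsingleton.elim _ _) hx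

lemma avg_succ (n : ℕ) (u : (Fin (n + 1) → Bool) → ℝ) :
    avg (n + 1) u = (avg n (fun x => u (Fin.cons true x)) +
      avg n (fun x => u (Fin.cons false x))) / 2 := by
  unfold avg
  rw [sum_cube_succ, pow_succ]
  ring

lemma bsc_cons (n : ℕ) (e : ℝ) (a b : Bool) (x y : Fin n → Bool) :
    bsc (n + 1) e (Fin.cons a x) (Fin.cons b y) = (if a = b then 1 - e else e) * bsc n e x y := by
  unfold bsc
  rw [Fin.prod_univ_succ]
  simp

lemma nop_cons_true (n : ℕ) (e : ℝ) (u : (Fin (n + 1) → Bool) → ℝ) (y : Fin n → Bool) :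
    nop (n + 1) e u (Fin.cons true y) =
      nop n e (fun x => (1 - e) * u (Fin.cons true x) + e * u (Fin.cons false x)) y := by
  unfold nop
  rw [sum_cube_succ]
  simp only [bsc_cons]
  rw [← Finset.sum_add_distrib]
  refine Finset.sum_congr rfl (fun x _ => ?_)
  simp
  ring

lemma nop_cons_false (n : ℕ) (e : ℝ) (u : (Fin (n + 1) → Bool) → ℝ) (y : Fin n → Bool) :
    nop (n + 1) e u (Fin.cons false y) =
      nop n e (fun x => e * u (Fin.cons true x) + (1 - e) * u (Fin.cons false x)) y := by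
  unfold nop
  rw [sum_cube_succ]
  simp only [bsc_cons]
  rw [← Finset.sum_add_distrib]
  refine Finset.sum_congr rfl (fun x _ => ?_)
  simp
  ring

lemma bsc_nonneg (n : ℕ) (e : ℝ) (h0 : 0 ≤ e) (h1 : e ≤ 1) (x y : Fin n → Bool) :
    0 ≤ bsc n e x y := by
  unfold bsc
  refine Finset.prod_nonneg (fun i _ => ?_)
  split_ifs <;> linarith

lemma sum_bsc_left (e : ℝ) : ∀ (n : ℕ) (y : Fin n → Bool), ∑ x, bsc n e x y = 1 := by
  intro n
  induction n with
  | zero =>
    intro y
    rw [sum_cube_zero]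
    simp [bsc]
  | succ n ih =>
    intro y
    refine Fin.consCases (fun b y' => ?_) y
    rw [sum_cube_succ]
    simp only [bsc_cons]
    rw [← Finset.mul_sum, ← Finset.mul_sum, ih y']
    cases b <;> simp

lemma sum_bsc_right (e : ℝ) : ∀ (n : ℕ) (x : Fin n → Bool), ∑ y, bsc n e x y = 1 := by
  intro n
  induction n with
  | zero =>
    intro x
    rw [sum_cube_zero]
    simp [bsc]
  | succ n ih =>
    intro x
    refine Fin.consCases (fun b x' => ?_) x
    rw [sum_cube_succ]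
    simp only [bsc_cons]
    rw [← Finset.mul_sum, ← Finset.mul_sum, ih x']
    cases b <;> simp

lemma avg_nop (n : ℕ) (e : ℝ) (u : (Fin n → Bool) → ℝ) : avg n (nop n e u) = avg n u := by
  unfold avg nop
  rw [Finset.sum_comm]
  congr 1
  refine Finset.sum_congr rfl (fun x _ => ?_)
  rw [← Finset.sum_mul, sum_bsc_right, one_mul]

lemma nop_nonneg (n : ℕ) (e : ℝ) (h0 : 0 ≤ e) (h1 : e ≤ 1) (u : (Fin n → Bool) → ℝ)
    (hu : ∀ x, 0 ≤ u x) (y : Fin n → Bool) : 0 ≤ nop n e u y := by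
  unfold nop
  exact Finset.sum_nonneg (fun x _ => mul_nonneg (bsc_nonneg n e h0 h1 x y) (hu x))

lemma avg_nonneg (n : ℕ) (u : (Fin n → Bool) → ℝ) (hu : ∀ x, 0 ≤ u x) : 0 ≤ avg n u := by
  unfold avg
  exact mul_nonneg (by positivity) (Finset.sum_nonneg (fun x _ => hu x))

lemma avg_lin (n : ℕ) (c d : ℝ) (u v : (Fin n → Bool) → ℝ) :
    avg n (fun x => c * u x + d * v x) = c * avg n u + d * avg n v := by
  unfold avg
  rw [Finset.sum_add_distrib, ← Finset.mul_sum, ← Finset.mul_sum]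
  ring

lemma avg_const (n : ℕ) (c : ℝ) : avg n (fun _ => c) = c := by
  unfold avg
  simp

lemma avg_one_sub (n : ℕ) (u : (Fin n → Bool) → ℝ) :
    avg n (fun x => 1 - u x) = 1 - avg n u := by
  have h := avg_lin n 1 (-1) (fun _ => (1 : ℝ)) u
  rw [avg_const] at h
  have e : (fun x => 1 - u x) = (fun x => 1 * (1 : ℝ) + -1 * u x) := by
    funext x; ring
  rw [e, h]; ring

lemma ent_succ (n : ℕ) (v : (Fin (n + 1) → Bool) → ℝ) :
    ent (n + 1) v = (ent n (fun x => v (Fin.cons true x)) + ent n (fun x => v (Fin.cons false x))) / 2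
      + ((eta (avg n (fun x => v (Fin.cons true x))) + eta (avg n (fun x => v (Fin.cons false x)))) / 2
        - eta ((avg n (fun x => v (Fin.cons true x)) + avg n (fun x => v (Fin.cons false x))) / 2)) := by
  unfold ent
  rw [avg_succ n (fun x => eta (v x)), avg_succ n v]
  ring

lemma ent_zero (v : (Fin 0 → Bool) → ℝ) : ent 0 v = 0 := by
  unfold ent avg
  rw [sum_cube_zero, sum_cube_zero]
  simp

/-- Upper bound for the Jensen gap of `eta`. -/
lemma gap_le {A B r : ℝ} (hA : 0 ≤ A) (hB : 0 ≤ B) (hr0 : 0 ≤ r) (hr1 : r ≤ 1) :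
    (eta ((A + B) / 2 + r * ((A - B) / 2)) + eta ((A + B) / 2 - r * ((A - B) / 2))) / 2
      - eta ((A + B) / 2) ≤ psi r * (((A - B) / 2) ^ 2 / ((A + B) / 2)) := by
  rcases eq_or_lt_of_le (show 0 ≤ (A + B) / 2 by linarith) with h | h
  · have hA0 : A = 0 := by linarith
    have hB0 : B = 0 := by linarith
    subst hA0 hB0
    simp [eta]
  · have hd : |(A - B) / 2| ≤ (A + B) / 2 := by
      rw [abs_le]; constructor <;> linarith
    have hd2 : |r * ((A - B) / 2)| ≤ (A + B) / 2 := by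
      rw [abs_mul, abs_of_nonneg hr0]
      calc r * |(A - B) / 2| ≤ 1 * |(A - B) / 2| :=
            mul_le_mul_of_nonneg_right hr1 (abs_nonneg _)
        _ ≤ (A + B) / 2 := by rw [one_mul]; exact hd
    rw [eta_gap h hd2]
    have hs : |(A - B) / 2 / ((A + B) / 2)| ≤ 1 := by
      rw [abs_div, abs_of_pos h, div_le_one h]; exact hd
    have hp := psi_mul_le hr0 hr1 hs
    have e1 : r * ((A - B) / 2) / ((A + B) / 2) = r * ((A - B) / 2 / ((A + B) / 2)) := by ring
    rw [e1]
    calc (A + B) / 2 * psi (r * ((A - B) / 2 / ((A + B) / 2)))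
        ≤ (A + B) / 2 * (((A - B) / 2 / ((A + B) / 2)) ^ 2 * psi r) :=
          mul_le_mul_of_nonneg_left hp h.le
      _ = psi r * (((A - B) / 2) ^ 2 / ((A + B) / 2)) := by
          field_simp

/-- Lower bound for the Jensen gap of `eta`. -/
lemma gap_ge {A B : ℝ} (hA : 0 ≤ A) (hB : 0 ≤ B) :
    ((A - B) / 2) ^ 2 / ((A + B) / 2) ≤
      2 * ((eta A + eta B) / 2 - eta ((A + B) / 2)) := by
  rcases eq_or_lt_of_le (show 0 ≤ (A + B) / 2 by linarith) with h | h
  · have hA0 : A = 0 := by linarith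
    have hB0 : B = 0 := by linarith
    subst hA0 hB0
    simp [eta]
  · have hd : |(A - B) / 2| ≤ (A + B) / 2 := by
      rw [abs_le]; constructor <;> linarith
    have e1 : A = (A + B) / 2 + (A - B) / 2 := by ring
    have e2 : B = (A + B) / 2 - (A - B) / 2 := by ring
    have hg := eta_gap h hd
    rw [← e1, ← e2] at hg
    rw [hg]
    have hs : |(A - B) / 2 / ((A + B) / 2)| ≤ 1 := by
      rw [abs_div, abs_of_pos h, div_le_one h]; exact hd
    have hp := psi_ge hs
    calc ((A - B) / 2) ^ 2 / ((A + B) / 2)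
        = 2 * ((A + B) / 2 * (((A - B) / 2 / ((A + B) / 2)) ^ 2 / 2)) := by field_simp
      _ ≤ 2 * ((A + B) / 2 * psi ((A - B) / 2 / ((A + B) / 2))) := by
          have := mul_le_mul_of_nonneg_left hp h.le
          linarith

end Vale.Agent.Lib.P322
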