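import Mathlib
import Vale.Agent.Lib.P322.Cube

namespace Vale.Agent.Lib.P322

open Finset

/-- Unnormalised posterior covariance `E[u(X) (X_j - E[X_j | Y]) | Y = y]`, with bits read as
signs. -/
noncomputable def cov (n : ℕ) (e : ℝ) (u : (Fin n → Bool) → ℝ) (j : Fin n)
    (y : Fin n → Bool) : ℝ :=
  ∑ x, bsc n e x y * u x * (sgn (x j) - (1 - 2 * e) * sgn (y j))

lemma cov_zero_cons (n : ℕ) (e : ℝ) (u : (Fin (n + 1) → Bool) → ℝ) (b : Bool)
    (y : Fin n → Bool) :
    cov (n + 1) e u 0 (Fin.cons b y) = (1 - (1 - 2 * e) ^ 2) *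
      nop n e (fun x => (u (Fin.cons true x) - u (Fin.cons false x)) / 2) y := by
  unfold cov nop
  rw [sum_cube_succ]
  simp only [bsc_cons, Fin.cons_zero]
  rw [← Finset.sum_add_distrib, Finset.mul_sum]
  refine Finset.sum_congr rfl (fun x _ => ?_)
  cases b <;> simp [sgn] <;> ring

lemma cov_succ_cons_true (n : ℕ) (e : ℝ) (u : (Fin (n + 1) → Bool) → ℝ) (j : Fin n)
    (y : Fin n → Bool) :
    cov (n + 1) e u j.succ (Fin.cons true y) =
      cov n e (fun x => (1 - e) * u (Fin.cons true x) + e * u (Fin.cons false x)) j y := by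
  unfold cov
  rw [sum_cube_succ]
  simp only [bsc_cons, Fin.cons_succ]
  rw [← Finset.sum_add_distrib]
  refine Finset.sum_congr rfl (fun x _ => ?_)
  simp
  ring

lemma cov_succ_cons_false (n : ℕ) (e : ℝ) (u : (Fin (n + 1) → Bool) → ℝ) (j : Fin n)
    (y : Fin n → Bool) :
    cov (n + 1) e u j.succ (Fin.cons false y) =
      cov n e (fun x => e * u (Fin.cons true x) + (1 - e) * u (Fin.cons false x)) j y := by
  unfold cov
  rw [sum_cube_succ]
  simp only [bsc_cons, Fin.cons_succ]
  rw [← Finset.sum_add_distrib]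
  refine Finset.sum_congr rfl (fun x _ => ?_)
  simp
  ring

lemma psi_le_div {s : ℝ} (hs : |s| < 1) : psi s ≤ s ^ 2 / 2 / (1 - s ^ 2) := by
  have h := hasSum_psi hs
  have hs2 : s ^ 2 < 1 := by
    have := sq_lt_one_iff_abs_lt_one s |>.mpr hs
    simpa using this
  have hg := (hasSum_geometric_of_lt_one (sq_nonneg s) hs2).mul_left (s ^ 2 / 2)
  have hle : ∀ k : ℕ, s ^ (2 * k + 2) / ((2 * (k : ℝ) + 1) * (2 * (k : ℝ) + 2)) ≤
      s ^ 2 / 2 * (s ^ 2) ^ k := by
    intro k
    have e1 : s ^ 2 / 2 * (s ^ 2) ^ k = s ^ (2 * k + 2) / 2 := by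
      rw [← pow_mul]; ring
    rw [e1]
    have hnn : 0 ≤ s ^ (2 * k + 2) := by
      have : s ^ (2 * k + 2) = (s ^ (k + 1)) ^ 2 := by ring
      rw [this]; positivity
    have hk : (0 : ℝ) ≤ (k : ℝ) := Nat.cast_nonneg k
    apply div_le_div_of_nonneg_left hnn (by norm_num)
    nlinarith
  have := hasSum_le hle h hg
  rw [div_eq_mul_inv (s ^ 2 / 2) (1 - s ^ 2)]
  exact this

/-- Sharp second-order bound for the Jensen gap of `eta`. -/
lemma gap_le_half {m t : ℝ} (hm : 0 < m) (ht : |t| < m) :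
    (eta (m + t) + eta (m - t)) / 2 - eta m ≤
      t ^ 2 / 2 * ((1 / (m + t) + 1 / (m - t)) / 2) := by
  rw [eta_gap hm ht.le]
  have ht' := abs_lt.mp ht
  have hs : |t / m| < 1 := by
    rw [abs_div, abs_of_pos hm, div_lt_one hm]; exact ht
  have hp := psi_le_div hs
  have h1 : 0 < m + t := by linarith
  have h2 : 0 < m - t := by linarith
  calc m * psi (t / m) ≤ m * ((t / m) ^ 2 / 2 / (1 - (t / m) ^ 2)) :=
        mul_le_mul_of_nonneg_left hp hm.le
    _ = t ^ 2 / 2 * ((1 / (m + t) + 1 / (m - t)) / 2) := by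
        have h3 : m ^ 2 - t ^ 2 ≠ 0 := by nlinarith
        have h4 : 1 - (t / m) ^ 2 = (m ^ 2 - t ^ 2) / m ^ 2 := by field_simp
        rw [h4]
        field_simp
        ring

lemma bsc_pos (n : ℕ) (e : ℝ) (h0 : 0 < e) (h1 : e < 1) (x y : Fin n → Bool) :
    0 < bsc n e x y := by
  unfold bsc
  refine Finset.prod_pos (fun i _ => ?_)
  split_ifs <;> linarith

lemma nop_pos (n : ℕ) (e : ℝ) (h0 : 0 < e) (h1 : e < 1) (u : (Fin n → Bool) → ℝ)
    (hu : ∀ x, 0 ≤ u x) (hx : ∃ x, 0 < u x) (y : Fin n → Bool) : 0 < nop n e u y := by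
  obtain ⟨x0, hx0⟩ := hx
  unfold nop
  refine Finset.sum_pos' (fun x _ => mul_nonneg (bsc_pos n e h0 h1 x y).le (hu x)) ?_
  exact ⟨x0, Finset.mem_univ _, mul_pos (bsc_pos n e h0 h1 x0 y) hx0⟩

lemma avg_add (n : ℕ) (u v : (Fin n → Bool) → ℝ) :
    avg n (fun x => u x + v x) = avg n u + avg n v := by
  have h := avg_lin n 1 1 u v
  simp only [one_mul] at h
  exact h

lemma avg_mul_left (n : ℕ) (c : ℝ) (u : (Fin n → Bool) → ℝ) :
    avg n (fun x => c * u x) = c * avg n u := by
  unfold avg
  rw [← Finset.mul_sum]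
  ring

lemma avg_mono (n : ℕ) (u v : (Fin n → Bool) → ℝ) (h : ∀ x, u x ≤ v x) :
    avg n u ≤ avg n v := by
  unfold avg
  exact mul_le_mul_of_nonneg_left (Finset.sum_le_sum (fun x _ => h x)) (by positivity)

/-- Sedrakyan (Engel form of Cauchy-Schwarz) for means over the cube. -/
lemma avg_sq_div_le (n : ℕ) (c g : (Fin n → Bool) → ℝ) (hg : ∀ y, 0 < g y) :
    (avg n c) ^ 2 / avg n g ≤ avg n (fun y => c y ^ 2 / g y) := by
  have h := Finset.sq_sum_div_le_sum_sq_div (Finset.univ : Finset (Fin n → Bool)) c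
    (g := g) (fun i _ => hg i)
  have hc : (0 : ℝ) < (1 / 2 : ℝ) ^ n := by positivity
  unfold avg
  have e1 : ((1 / 2 : ℝ) ^ n * ∑ x, c x) ^ 2 / ((1 / 2 : ℝ) ^ n * ∑ x, g x) =
      (1 / 2 : ℝ) ^ n * ((∑ x, c x) ^ 2 / ∑ x, g x) := by
    field_simp
  rw [e1]
  exact mul_le_mul_of_nonneg_left h hc.le

/-- Exact one-step recursion for the entropy functional of a noisy function. -/
lemma ent_nop_succ (n : ℕ) (e : ℝ) (u : (Fin (n + 1) → Bool) → ℝ) :
    ent (n + 1) (nop (n + 1) e u) =
      (ent n (nop n e (fun x => (1 - e) * u (Fin.cons true x) + e * u (Fin.cons false x))) +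
        ent n (nop n e (fun x => e * u (Fin.cons true x) + (1 - e) * u (Fin.cons false x)))) / 2 +
      ((eta ((avg n (fun x => u (Fin.cons true x)) + avg n (fun x => u (Fin.cons false x))) / 2 +
            (1 - 2 * e) * ((avg n (fun x => u (Fin.cons true x)) -
              avg n (fun x => u (Fin.cons false x))) / 2)) +
          eta ((avg n (fun x => u (Fin.cons true x)) + avg n (fun x => u (Fin.cons false x))) / 2 -
            (1 - 2 * e) * ((avg n (fun x => u (Fin.cons true x)) -
              avg n (fun x => u (Fin.cons false x))) / 2))) / 2 -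
        eta ((avg n (fun x => u (Fin.cons true x)) + avg n (fun x => u (Fin.cons false x))) / 2)) := by
  have et : (fun y : Fin n → Bool => nop (n + 1) e u (Fin.cons true y)) =
      nop n e (fun x => (1 - e) * u (Fin.cons true x) + e * u (Fin.cons false x)) :=
    funext (fun y => nop_cons_true n e u y)
  have ef : (fun y : Fin n → Bool => nop (n + 1) e u (Fin.cons false y)) =
      nop n e (fun x => e * u (Fin.cons true x) + (1 - e) * u (Fin.cons false x)) :=
    funext (fun y => nop_cons_false n e u y)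
  rw [ent_succ, et, ef, avg_nop, avg_nop, avg_lin, avg_lin]
  have e1 : (1 - e) * avg n (fun x => u (Fin.cons true x)) + e * avg n (fun x => u (Fin.cons false x)) =
      (avg n (fun x => u (Fin.cons true x)) + avg n (fun x => u (Fin.cons false x))) / 2 +
        (1 - 2 * e) * ((avg n (fun x => u (Fin.cons true x)) - avg n (fun x => u (Fin.cons false x))) / 2) := by
    ring
  have e2 : e * avg n (fun x => u (Fin.cons true x)) + (1 - e) * avg n (fun x => u (Fin.cons false x)) =
      (avg n (fun x => u (Fin.cons true x)) + avg n (fun x => u (Fin.cons false x))) / 2 -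
        (1 - 2 * e) * ((avg n (fun x => u (Fin.cons true x)) - avg n (fun x => u (Fin.cons false x))) / 2) := by
    ring
  have e3 : ((1 - e) * avg n (fun x => u (Fin.cons true x)) + e * avg n (fun x => u (Fin.cons false x)) +
      (e * avg n (fun x => u (Fin.cons true x)) + (1 - e) * avg n (fun x => u (Fin.cons false x)))) / 2 =
      (avg n (fun x => u (Fin.cons true x)) + avg n (fun x => u (Fin.cons false x))) / 2 := by
    ring
  rw [e3, e1, e2]

/-- The level-one functional: mean over `y` of the sum of squared posterior covariances divided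
by the posterior mean. -/
noncomputable def Rf (n : ℕ) (e : ℝ) (u : (Fin n → Bool) → ℝ) : ℝ :=
  avg n (fun y => ∑ j, cov n e u j y ^ 2 / nop n e u y)

/-- One-step recursion for `Rf`. -/
lemma Rf_succ (n : ℕ) (e : ℝ) (u : (Fin (n + 1) → Bool) → ℝ) :
    Rf (n + 1) e u =
      (avg n (fun y => ((1 - (1 - 2 * e) ^ 2) *
          nop n e (fun x => (u (Fin.cons true x) - u (Fin.cons false x)) / 2) y) ^ 2 /
          nop n e (fun x => (1 - e) * u (Fin.cons true x) + e * u (Fin.cons false x)) y) +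
        Rf n e (fun x => (1 - e) * u (Fin.cons true x) + e * u (Fin.cons false x)) +
        (avg n (fun y => ((1 - (1 - 2 * e) ^ 2) *
          nop n e (fun x => (u (Fin.cons true x) - u (Fin.cons false x)) / 2) y) ^ 2 /
          nop n e (fun x => e * u (Fin.cons true x) + (1 - e) * u (Fin.cons false x)) y) +
        Rf n e (fun x => e * u (Fin.cons true x) + (1 - e) * u (Fin.cons false x)))) / 2 := by
  have hT : avg n (fun y => ∑ j, cov (n + 1) e u j (Fin.cons true y) ^ 2 /
        nop (n + 1) e u (Fin.cons true y)) =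
      avg n (fun y => ((1 - (1 - 2 * e) ^ 2) *
          nop n e (fun x => (u (Fin.cons true x) - u (Fin.cons false x)) / 2) y) ^ 2 /
          nop n e (fun x => (1 - e) * u (Fin.cons true x) + e * u (Fin.cons false x)) y) +
        Rf n e (fun x => (1 - e) * u (Fin.cons true x) + e * u (Fin.cons false x)) := by
    unfold Rf
    rw [← avg_add]
    congr 1
    funext y
    rw [Fin.sum_univ_succ, cov_zero_cons, nop_cons_true]
    congr 1
    refine Finset.sum_congr rfl (fun j _ => ?_)
    rw [cov_succ_cons_true]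
  have hF : avg n (fun y => ∑ j, cov (n + 1) e u j (Fin.cons false y) ^ 2 /
        nop (n + 1) e u (Fin.cons false y)) =
      avg n (fun y => ((1 - (1 - 2 * e) ^ 2) *
          nop n e (fun x => (u (Fin.cons true x) - u (Fin.cons false x)) / 2) y) ^ 2 /
          nop n e (fun x => e * u (Fin.cons true x) + (1 - e) * u (Fin.cons false x)) y) +
        Rf n e (fun x => e * u (Fin.cons true x) + (1 - e) * u (Fin.cons false x)) := by
    unfold Rf
    rw [← avg_add]
    congr 1
    funext y
    rw [Fin.sum_univ_succ, cov_zero_cons, nop_cons_false]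
    congr 1
    refine Finset.sum_congr rfl (fun j _ => ?_)
    rw [cov_succ_cons_false]
  have h0 : Rf (n + 1) e u =
      (avg n (fun y => ∑ j, cov (n + 1) e u j (Fin.cons true y) ^ 2 /
        nop (n + 1) e u (Fin.cons true y)) +
      avg n (fun y => ∑ j, cov (n + 1) e u j (Fin.cons false y) ^ 2 /
        nop (n + 1) e u (Fin.cons false y))) / 2 := by
    unfold Rf
    rw [avg_succ]
  rw [h0, hT, hF]

lemma Rf_nonneg (n : ℕ) (e : ℝ) (h0 : 0 ≤ e) (h1 : e ≤ 1) (u : (Fin n → Bool) → ℝ)
    (hu : ∀ x, 0 ≤ u x) : 0 ≤ Rf n e u := by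
  unfold Rf
  refine avg_nonneg n _ (fun y => Finset.sum_nonneg (fun j _ => ?_))
  exact div_nonneg (sq_nonneg _) (nop_nonneg n e h0 h1 u hu y)

/-- Real-number inequality behind the induction step of `ent_nop_le_Rf`. -/
lemma chain_step {e A B ET EF RT RF ST SF : ℝ} (h0 : 0 < e) (h1 : e ≤ 1 / 2)
    (hA : 0 ≤ A) (hB : 0 ≤ B) (hAB : 0 < A + B)
    (hT : ET ≤ (1 - 2 * e) ^ 2 / (2 * (1 - (1 - 2 * e) ^ 2) ^ 2) * RT)
    (hF : EF ≤ (1 - 2 * e) ^ 2 / (2 * (1 - (1 - 2 * e) ^ 2) ^ 2) * RF)
    (hST : ((1 - (1 - 2 * e) ^ 2) * ((A - B) / 2)) ^ 2 /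
      ((A + B) / 2 + (1 - 2 * e) * ((A - B) / 2)) ≤ ST)
    (hSF : ((1 - (1 - 2 * e) ^ 2) * ((A - B) / 2)) ^ 2 /
      ((A + B) / 2 - (1 - 2 * e) * ((A - B) / 2)) ≤ SF) :
    (ET + EF) / 2 +
      ((eta ((A + B) / 2 + (1 - 2 * e) * ((A - B) / 2)) +
          eta ((A + B) / 2 - (1 - 2 * e) * ((A - B) / 2))) / 2 - eta ((A + B) / 2)) ≤
      (1 - 2 * e) ^ 2 / (2 * (1 - (1 - 2 * e) ^ 2) ^ 2) * ((ST + RT + (SF + RF)) / 2) := by
  obtain ⟨r, hr⟩ : ∃ r : ℝ, r = 1 - 2 * e := ⟨_, rfl⟩
  rw [← hr] at hT hF hST hSF ⊢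
  have hr0 : 0 ≤ r := by rw [hr]; linarith
  have hr1 : r < 1 := by rw [hr]; linarith
  have hq : 0 < 1 - r ^ 2 := by nlinarith
  have hm : 0 < (A + B) / 2 := by linarith
  have habs : |(A - B) / 2| ≤ (A + B) / 2 := by
    rw [abs_le]; constructor <;> linarith
  have ht : |r * ((A - B) / 2)| < (A + B) / 2 := by
    rw [abs_mul, abs_of_nonneg hr0]
    calc r * |(A - B) / 2| ≤ r * ((A + B) / 2) := mul_le_mul_of_nonneg_left habs hr0
      _ < 1 * ((A + B) / 2) := mul_lt_mul_of_pos_right hr1 hm
      _ = (A + B) / 2 := one_mul _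
  have hg := gap_le_half hm ht
  have ht' := abs_lt.mp ht
  have hp : 0 < (A + B) / 2 + r * ((A - B) / 2) := by linarith
  have hn : 0 < (A + B) / 2 - r * ((A - B) / 2) := by linarith
  have hK : 0 ≤ r ^ 2 / (2 * (1 - r ^ 2) ^ 2) := by positivity
  have k1 : r ^ 2 / (2 * (1 - r ^ 2) ^ 2) *
      (((1 - r ^ 2) * ((A - B) / 2)) ^ 2 / ((A + B) / 2 + r * ((A - B) / 2))) =
      (r * ((A - B) / 2)) ^ 2 / 2 * (1 / ((A + B) / 2 + r * ((A - B) / 2))) := by
    field_simp
  have k2 : r ^ 2 / (2 * (1 - r ^ 2) ^ 2) *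
      (((1 - r ^ 2) * ((A - B) / 2)) ^ 2 / ((A + B) / 2 - r * ((A - B) / 2))) =
      (r * ((A - B) / 2)) ^ 2 / 2 * (1 / ((A + B) / 2 - r * ((A - B) / 2))) := by
    field_simp
  have m1 := mul_le_mul_of_nonneg_left hST hK
  have m2 := mul_le_mul_of_nonneg_left hSF hK
  rw [k1] at m1
  rw [k2] at m2
  have expand : r ^ 2 / (2 * (1 - r ^ 2) ^ 2) * ((ST + RT + (SF + RF)) / 2) =
      (r ^ 2 / (2 * (1 - r ^ 2) ^ 2) * ST + r ^ 2 / (2 * (1 - r ^ 2) ^ 2) * RT +
        (r ^ 2 / (2 * (1 - r ^ 2) ^ 2) * SF + r ^ 2 / (2 * (1 - r ^ 2) ^ 2) * RF)) / 2 := by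
    ring
  rw [expand]
  have hg' : (eta ((A + B) / 2 + r * ((A - B) / 2)) + eta ((A + B) / 2 - r * ((A - B) / 2))) / 2 -
      eta ((A + B) / 2) ≤
      ((r * ((A - B) / 2)) ^ 2 / 2 * (1 / ((A + B) / 2 + r * ((A - B) / 2))) +
        (r * ((A - B) / 2)) ^ 2 / 2 * (1 / ((A + B) / 2 - r * ((A - B) / 2)))) / 2 := by
    calc _ ≤ (r * ((A - B) / 2)) ^ 2 / 2 * ((1 / ((A + B) / 2 + r * ((A - B) / 2)) +
          1 / ((A + B) / 2 - r * ((A - B) / 2))) / 2) := hg
      _ = _ := by ring
  linarith

/-- Entropy of a noisy nonnegative function is controlled by the level-one functional. -/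
theorem ent_nop_le_Rf (e : ℝ) (h0 : 0 < e) (h1 : e ≤ 1 / 2) :
    ∀ (n : ℕ) (u : (Fin n → Bool) → ℝ), (∀ x, 0 ≤ u x) →
      ent n (nop n e u) ≤ (1 - 2 * e) ^ 2 / (2 * (1 - (1 - 2 * e) ^ 2) ^ 2) * Rf n e u := by
  intro n
  induction n with
  | zero =>
    intro u _
    have hR : Rf 0 e u = 0 := by
      unfold Rf
      simp [avg]
    rw [ent_zero, hR, mul_zero]
  | succ n ih =>
    intro u hu
    by_cases hz : ∀ x, u x = 0
    · have hn : nop (n + 1) e u = fun _ => 0 := by
        funext y
        unfold nop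
        simp [hz]
      have hl : ent (n + 1) (nop (n + 1) e u) = 0 := by
        rw [hn]
        unfold ent avg eta
        simp
      rw [hl]
      exact mul_nonneg (div_nonneg (sq_nonneg _) (by positivity))
        (Rf_nonneg (n + 1) e h0.le (by linarith) u hu)
    · obtain ⟨x0, hx0⟩ := not_forall.mp hz
      have hx0pos : 0 < u x0 := lt_of_le_of_ne (hu x0) (Ne.symm hx0)
      have he1 : e < 1 := by linarith
      have hwt : ∀ x : Fin n → Bool,
          0 ≤ (1 - e) * u (Fin.cons true x) + e * u (Fin.cons false x) :=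
        fun x => add_nonneg (mul_nonneg (by linarith) (hu _)) (mul_nonneg h0.le (hu _))
      have hwf : ∀ x : Fin n → Bool,
          0 ≤ e * u (Fin.cons true x) + (1 - e) * u (Fin.cons false x) :=
        fun x => add_nonneg (mul_nonneg h0.le (hu _)) (mul_nonneg (by linarith) (hu _))
      have hx0' : x0 = Fin.cons (x0 0) (Fin.tail x0) := (Fin.cons_self_tail x0).symm
      have hex : 0 < u (Fin.cons true (Fin.tail x0)) + u (Fin.cons false (Fin.tail x0)) := by
        cases hb : x0 0 with
        | true =>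
          rw [hb] at hx0'
          rw [← hx0']
          have := hu (Fin.cons false (Fin.tail x0))
          linarith
        | false =>
          rw [hb] at hx0'
          rw [← hx0']
          have := hu (Fin.cons true (Fin.tail x0))
          linarith
      have hwtp : ∃ x : Fin n → Bool,
          0 < (1 - e) * u (Fin.cons true x) + e * u (Fin.cons false x) := by
        refine ⟨Fin.tail x0, ?_⟩
        have a1 := hu (Fin.cons true (Fin.tail x0))
        have a2 := hu (Fin.cons false (Fin.tail x0))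
        nlinarith
      have hwfp : ∃ x : Fin n → Bool,
          0 < e * u (Fin.cons true x) + (1 - e) * u (Fin.cons false x) := by
        refine ⟨Fin.tail x0, ?_⟩
        have a1 := hu (Fin.cons true (Fin.tail x0))
        have a2 := hu (Fin.cons false (Fin.tail x0))
        nlinarith
      have hA : 0 ≤ avg n (fun x => u (Fin.cons true x)) := avg_nonneg n _ (fun x => hu _)
      have hB : 0 ≤ avg n (fun x => u (Fin.cons false x)) := avg_nonneg n _ (fun x => hu _)
      have hAB : 0 < avg n (fun x => u (Fin.cons true x)) + avg n (fun x => u (Fin.cons false x)) := by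
        rw [← avg_add]
        unfold avg
        refine mul_pos (by positivity) ?_
        refine Finset.sum_pos' (fun x _ => add_nonneg (hu _) (hu _)) ?_
        exact ⟨Fin.tail x0, Finset.mem_univ _, hex⟩
      have hd : avg n (fun x => (u (Fin.cons true x) - u (Fin.cons false x)) / 2) =
          (avg n (fun x => u (Fin.cons true x)) - avg n (fun x => u (Fin.cons false x))) / 2 := by
        have h := avg_lin n (1 / 2) (-(1 / 2)) (fun x => u (Fin.cons true x))
          (fun x => u (Fin.cons false x))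
        have e' : (fun x : Fin n → Bool => (u (Fin.cons true x) - u (Fin.cons false x)) / 2) =
            (fun x => 1 / 2 * u (Fin.cons true x) + -(1 / 2) * u (Fin.cons false x)) := by
          funext x; ring
        rw [e', h]; ring
      have sT := avg_sq_div_le n
        (fun y => (1 - (1 - 2 * e) ^ 2) *
          nop n e (fun x => (u (Fin.cons true x) - u (Fin.cons false x)) / 2) y)
        (nop n e (fun x => (1 - e) * u (Fin.cons true x) + e * u (Fin.cons false x)))
        (nop_pos n e h0 he1 _ hwt hwtp)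
      have sF := avg_sq_div_le n
        (fun y => (1 - (1 - 2 * e) ^ 2) *
          nop n e (fun x => (u (Fin.cons true x) - u (Fin.cons false x)) / 2) y)
        (nop n e (fun x => e * u (Fin.cons true x) + (1 - e) * u (Fin.cons false x)))
        (nop_pos n e h0 he1 _ hwf hwfp)
      rw [avg_mul_left, avg_nop, avg_nop, hd, avg_lin] at sT sF
      have e1 : (1 - e) * avg n (fun x => u (Fin.cons true x)) + e * avg n (fun x => u (Fin.cons false x)) =
          (avg n (fun x => u (Fin.cons true x)) + avg n (fun x => u (Fin.cons false x))) / 2 +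
            (1 - 2 * e) * ((avg n (fun x => u (Fin.cons true x)) - avg n (fun x => u (Fin.cons false x))) / 2) := by
        ring
      have e2 : e * avg n (fun x => u (Fin.cons true x)) + (1 - e) * avg n (fun x => u (Fin.cons false x)) =
          (avg n (fun x => u (Fin.cons true x)) + avg n (fun x => u (Fin.cons false x))) / 2 -
            (1 - 2 * e) * ((avg n (fun x => u (Fin.cons true x)) - avg n (fun x => u (Fin.cons false x))) / 2) := by
        ring
      rw [e1] at sT
      rw [e2] at sF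
      rw [ent_nop_succ, Rf_succ]
      exact chain_step h0 h1 hA hB hAB (ih _ hwt) (ih _ hwf) sT sF

end Vale.Agent.Lib.P322
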