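import Mathlib
import Vale.Agent.Lib.P322.Cov

namespace Vale.Agent.Lib.P322

open Finset

/-- Posterior variance of `v(X)` given `Y = y`. -/
noncomputable def Vr (n : ℕ) (e : ℝ) (v : (Fin n → Bool) → ℝ) (y : Fin n → Bool) : ℝ :=
  nop n e (fun x => v x ^ 2) y - (nop n e v y) ^ 2

/-- Posterior variance minus posterior level-one weight. -/
noncomputable def Wr (n : ℕ) (e : ℝ) (u : (Fin n → Bool) → ℝ) (y : Fin n → Bool) : ℝ :=
  Vr n e u y - (∑ j, cov n e u j y ^ 2) / (1 - (1 - 2 * e) ^ 2)

/-- Variance under the uniform measure on the cube. -/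
noncomputable def var (n : ℕ) (v : (Fin n → Bool) → ℝ) : ℝ :=
  avg n (fun x => v x ^ 2) - (avg n v) ^ 2

/-- Level-one Fourier coefficient. -/
noncomputable def lev (n : ℕ) (u : (Fin n → Bool) → ℝ) (j : Fin n) : ℝ :=
  avg n (fun x => u x * sgn (x j))

/-- Variance minus level-one Fourier weight (the Fourier weight above level one). -/
noncomputable def W2 (n : ℕ) (u : (Fin n → Bool) → ℝ) : ℝ :=
  var n u - ∑ j, lev n u j ^ 2

lemma nop_lin (n : ℕ) (e c d : ℝ) (u v : (Fin n → Bool) → ℝ) (y : Fin n → Bool) :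
    nop n e (fun x => c * u x + d * v x) y = c * nop n e u y + d * nop n e v y := by
  unfold nop
  rw [Finset.mul_sum, Finset.mul_sum, ← Finset.sum_add_distrib]
  refine Finset.sum_congr rfl (fun x _ => ?_)
  ring

lemma Vr_nonneg (n : ℕ) (e : ℝ) (h0 : 0 ≤ e) (h1 : e ≤ 1) (v : (Fin n → Bool) → ℝ)
    (y : Fin n → Bool) : 0 ≤ Vr n e v y := by
  have hs := sum_bsc_left e n y
  have key : Vr n e v y = ∑ x, bsc n e x y * (v x - nop n e v y) ^ 2 := by
    have e1 : ∀ x, bsc n e x y * (v x - nop n e v y) ^ 2 =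
        bsc n e x y * v x ^ 2 - 2 * nop n e v y * (bsc n e x y * v x) +
          (nop n e v y) ^ 2 * bsc n e x y := fun x => by ring
    rw [Finset.sum_congr rfl (fun x _ => e1 x), Finset.sum_add_distrib, Finset.sum_sub_distrib,
      ← Finset.mul_sum, ← Finset.mul_sum, hs]
    unfold Vr nop
    ring
  rw [key]
  exact Finset.sum_nonneg (fun x _ => mul_nonneg (bsc_nonneg n e h0 h1 x y) (sq_nonneg _))

lemma var_nonneg (n : ℕ) (v : (Fin n → Bool) → ℝ) : 0 ≤ var n v := by
  have key : var n v = avg n (fun x => (v x - avg n v) ^ 2) := by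
    have e1 : (fun x : Fin n → Bool => (v x - avg n v) ^ 2) =
        (fun x => 1 * (v x ^ 2) + 1 * (-2 * avg n v * v x + (avg n v) ^ 2)) := by
      funext x; ring
    have e2 : (fun x : Fin n → Bool => -2 * avg n v * v x + (avg n v) ^ 2) =
        (fun x => (-2 * avg n v) * v x + (avg n v) ^ 2 * (fun _ => (1 : ℝ)) x) := by
      funext x; ring
    rw [e1, avg_lin, e2, avg_lin, avg_const]
    unfold var
    ring
  rw [key]
  exact avg_nonneg n _ (fun x => sq_nonneg _)

lemma Vr_cons_true (n : ℕ) (e : ℝ) (v : (Fin (n + 1) → Bool) → ℝ) (y : Fin n → Bool) :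
    Vr (n + 1) e v (Fin.cons true y) =
      Vr n e (fun x => (1 - e) * v (Fin.cons true x) + e * v (Fin.cons false x)) y +
        (1 - (1 - 2 * e) ^ 2) *
          nop n e (fun x => ((v (Fin.cons true x) - v (Fin.cons false x)) / 2) ^ 2) y := by
  unfold Vr
  rw [nop_cons_true n e (fun x => v x ^ 2), nop_cons_true n e v]
  have e1 : (fun x : Fin n → Bool => (1 - e) * v (Fin.cons true x) ^ 2 + e * v (Fin.cons false x) ^ 2) =
      (fun x => 1 * ((1 - e) * v (Fin.cons true x) + e * v (Fin.cons false x)) ^ 2 +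
        (1 - (1 - 2 * e) ^ 2) * ((v (Fin.cons true x) - v (Fin.cons false x)) / 2) ^ 2) := by
    funext x; ring
  rw [e1, nop_lin]
  ring

lemma Vr_cons_false (n : ℕ) (e : ℝ) (v : (Fin (n + 1) → Bool) → ℝ) (y : Fin n → Bool) :
    Vr (n + 1) e v (Fin.cons false y) =
      Vr n e (fun x => e * v (Fin.cons true x) + (1 - e) * v (Fin.cons false x)) y +
        (1 - (1 - 2 * e) ^ 2) *
          nop n e (fun x => ((v (Fin.cons true x) - v (Fin.cons false x)) / 2) ^ 2) y := by
  unfold Vr
  rw [nop_cons_false n e (fun x => v x ^ 2), nop_cons_false n e v]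
  have e1 : (fun x : Fin n → Bool => e * v (Fin.cons true x) ^ 2 + (1 - e) * v (Fin.cons false x) ^ 2) =
      (fun x => 1 * (e * v (Fin.cons true x) + (1 - e) * v (Fin.cons false x)) ^ 2 +
        (1 - (1 - 2 * e) ^ 2) * ((v (Fin.cons true x) - v (Fin.cons false x)) / 2) ^ 2) := by
    funext x; ring
  rw [e1, nop_lin]
  ring

lemma Wr_cons_true (n : ℕ) (e : ℝ) (hq : 1 - (1 - 2 * e) ^ 2 ≠ 0)
    (u : (Fin (n + 1) → Bool) → ℝ) (y : Fin n → Bool) :
    Wr (n + 1) e u (Fin.cons true y) =
      Wr n e (fun x => (1 - e) * u (Fin.cons true x) + e * u (Fin.cons false x)) y +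
        (1 - (1 - 2 * e) ^ 2) *
          Vr n e (fun x => (u (Fin.cons true x) - u (Fin.cons false x)) / 2) y := by
  have key : ∀ (q a b c s : ℝ), q ≠ 0 →
      a + q * b - ((q * c) ^ 2 + s) / q = a - s / q + q * (b - c ^ 2) := by
    intro q a b c s hq'
    field_simp
    ring
  unfold Wr
  rw [Vr_cons_true, Fin.sum_univ_succ, cov_zero_cons]
  rw [Finset.sum_congr rfl (fun j _ => by rw [cov_succ_cons_true])]
  unfold Vr
  exact key _ _ _ _ _ hq

lemma Wr_cons_false (n : ℕ) (e : ℝ) (hq : 1 - (1 - 2 * e) ^ 2 ≠ 0)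
    (u : (Fin (n + 1) → Bool) → ℝ) (y : Fin n → Bool) :
    Wr (n + 1) e u (Fin.cons false y) =
      Wr n e (fun x => e * u (Fin.cons true x) + (1 - e) * u (Fin.cons false x)) y +
        (1 - (1 - 2 * e) ^ 2) *
          Vr n e (fun x => (u (Fin.cons true x) - u (Fin.cons false x)) / 2) y := by
  have key : ∀ (q a b c s : ℝ), q ≠ 0 →
      a + q * b - ((q * c) ^ 2 + s) / q = a - s / q + q * (b - c ^ 2) := by
    intro q a b c s hq'
    field_simp
    ring
  unfold Wr
  rw [Vr_cons_false, Fin.sum_univ_succ, cov_zero_cons]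
  rw [Finset.sum_congr rfl (fun j _ => by rw [cov_succ_cons_false])]
  unfold Vr
  exact key _ _ _ _ _ hq

/-- Posterior Bessel inequality: the posterior level-one weight is at most the posterior
variance. -/
theorem Wr_nonneg (e : ℝ) (h0 : 0 < e) (h1 : e < 1) :
    ∀ (n : ℕ) (u : (Fin n → Bool) → ℝ) (y : Fin n → Bool), 0 ≤ Wr n e u y := by
  have hq : 0 < 1 - (1 - 2 * e) ^ 2 := by nlinarith
  intro n
  induction n with
  | zero =>
    intro u y
    unfold Wr
    simp
    exact Vr_nonneg 0 e h0.le h1.le u y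
  | succ n ih =>
    intro u y
    refine Fin.consCases (fun b y' => ?_) y
    cases b with
    | true =>
      rw [Wr_cons_true n e hq.ne']
      exact add_nonneg (ih _ _) (mul_nonneg hq.le (Vr_nonneg n e h0.le h1.le _ _))
    | false =>
      rw [Wr_cons_false n e hq.ne']
      exact add_nonneg (ih _ _) (mul_nonneg hq.le (Vr_nonneg n e h0.le h1.le _ _))

lemma avg_lin3 (n : ℕ) (c1 c2 c3 : ℝ) (u v w : (Fin n → Bool) → ℝ) :
    avg n (fun x => c1 * u x + c2 * v x + c3 * w x) =
      c1 * avg n u + c2 * avg n v + c3 * avg n w := by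
  unfold avg
  rw [Finset.sum_add_distrib, Finset.sum_add_distrib, ← Finset.mul_sum, ← Finset.mul_sum,
    ← Finset.mul_sum]
  ring

lemma avg_sq_add (n : ℕ) (a b : (Fin n → Bool) → ℝ) (c : ℝ) :
    avg n (fun x => (a x + c * b x) ^ 2) =
      avg n (fun x => a x ^ 2) + 2 * c * avg n (fun x => a x * b x) +
        c ^ 2 * avg n (fun x => b x ^ 2) := by
  calc avg n (fun x => (a x + c * b x) ^ 2)
      = avg n (fun x => 1 * a x ^ 2 + 2 * c * (a x * b x) + c ^ 2 * b x ^ 2) := by
        congr 1; funext x; ring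
    _ = 1 * avg n (fun x => a x ^ 2) + 2 * c * avg n (fun x => a x * b x) +
          c ^ 2 * avg n (fun x => b x ^ 2) :=
        avg_lin3 n 1 (2 * c) (c ^ 2) (fun x => a x ^ 2) (fun x => a x * b x) (fun x => b x ^ 2)
    _ = _ := by ring

lemma avg_add_mul (n : ℕ) (a b : (Fin n → Bool) → ℝ) (c : ℝ) :
    avg n (fun x => a x + c * b x) = avg n a + c * avg n b := by
  calc avg n (fun x => a x + c * b x) = avg n (fun x => 1 * a x + c * b x) := by
        congr 1; funext x; ring
    _ = 1 * avg n a + c * avg n b := avg_lin n 1 c a b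
    _ = _ := by ring

lemma var_add_mul (n : ℕ) (a b : (Fin n → Bool) → ℝ) (c : ℝ) :
    var n (fun x => a x + c * b x) =
      var n a + 2 * c * (avg n (fun x => a x * b x) - avg n a * avg n b) + c ^ 2 * var n b := by
  unfold var
  rw [avg_sq_add, avg_add_mul]
  ring

lemma var_parallelogram (n : ℕ) (a b : (Fin n → Bool) → ℝ) (c : ℝ) :
    var n (fun x => a x + c * b x) + var n (fun x => a x + (-c) * b x) =
      2 * var n a + 2 * c ^ 2 * var n b := by
  rw [var_add_mul, var_add_mul]
  ring

lemma var_succ (n : ℕ) (v : (Fin (n + 1) → Bool) → ℝ) :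
    var (n + 1) v = var n (fun x => (v (Fin.cons true x) + v (Fin.cons false x)) / 2) +
      avg n (fun x => ((v (Fin.cons true x) - v (Fin.cons false x)) / 2) ^ 2) := by
  unfold var
  rw [avg_succ n (fun x => v x ^ 2), avg_succ n v]
  have e1 : (fun x : Fin n → Bool => ((v (Fin.cons true x) + v (Fin.cons false x)) / 2) ^ 2) =
      (fun x => (1 / 4) * (v (Fin.cons true x) ^ 2 + v (Fin.cons false x) ^ 2) +
        (1 / 2) * (v (Fin.cons true x) * v (Fin.cons false x))) := by
    funext x; ring
  have e2 : (fun x : Fin n → Bool => ((v (Fin.cons true x) - v (Fin.cons false x)) / 2) ^ 2) =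
      (fun x => (1 / 4) * (v (Fin.cons true x) ^ 2 + v (Fin.cons false x) ^ 2) +
        (-(1 / 2)) * (v (Fin.cons true x) * v (Fin.cons false x))) := by
    funext x; ring
  have e3 : (fun x : Fin n → Bool => (v (Fin.cons true x) + v (Fin.cons false x)) / 2) =
      (fun x => (1 / 2) * v (Fin.cons true x) + (1 / 2) * v (Fin.cons false x)) := by
    funext x; ring
  rw [e1, e2, e3, avg_lin, avg_lin, avg_lin,
    avg_add n (fun x => v (Fin.cons true x) ^ 2) (fun x => v (Fin.cons false x) ^ 2)]
  ring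

lemma var_zero (v : (Fin 0 → Bool) → ℝ) : var 0 v = 0 := by
  unfold var avg
  rw [sum_cube_zero, sum_cube_zero]
  simp

lemma mixT_eq (n : ℕ) (e : ℝ) (v : (Fin (n + 1) → Bool) → ℝ) :
    (fun x : Fin n → Bool => (1 - e) * v (Fin.cons true x) + e * v (Fin.cons false x)) =
      (fun x => (v (Fin.cons true x) + v (Fin.cons false x)) / 2 +
        (1 - 2 * e) * ((v (Fin.cons true x) - v (Fin.cons false x)) / 2)) := by
  funext x; ring

lemma mixF_eq (n : ℕ) (e : ℝ) (v : (Fin (n + 1) → Bool) → ℝ) :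
    (fun x : Fin n → Bool => e * v (Fin.cons true x) + (1 - e) * v (Fin.cons false x)) =
      (fun x => (v (Fin.cons true x) + v (Fin.cons false x)) / 2 +
        (-(1 - 2 * e)) * ((v (Fin.cons true x) - v (Fin.cons false x)) / 2)) := by
  funext x; ring

/-- The mean posterior variance is at least `1 - rho^2` times the prior variance. -/
theorem avg_Vr_ge (e : ℝ) (h0 : 0 ≤ e) (h1 : e ≤ 1) :
    ∀ (n : ℕ) (v : (Fin n → Bool) → ℝ),
      (1 - (1 - 2 * e) ^ 2) * var n v ≤ avg n (Vr n e v) := by
  have hq : 0 ≤ 1 - (1 - 2 * e) ^ 2 := by nlinarith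
  intro n
  induction n with
  | zero =>
    intro v
    rw [var_zero, mul_zero]
    exact avg_nonneg 0 _ (fun y => Vr_nonneg 0 e h0 h1 v y)
  | succ n ih =>
    intro v
    have hT : avg n (fun y => Vr (n + 1) e v (Fin.cons true y)) =
        avg n (Vr n e (fun x => (1 - e) * v (Fin.cons true x) + e * v (Fin.cons false x))) +
          (1 - (1 - 2 * e) ^ 2) *
            avg n (fun x => ((v (Fin.cons true x) - v (Fin.cons false x)) / 2) ^ 2) := by
      rw [← avg_nop n e (fun x => ((v (Fin.cons true x) - v (Fin.cons false x)) / 2) ^ 2),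
        ← avg_add_mul]
      congr 1
      funext y
      rw [Vr_cons_true]
    have hF : avg n (fun y => Vr (n + 1) e v (Fin.cons false y)) =
        avg n (Vr n e (fun x => e * v (Fin.cons true x) + (1 - e) * v (Fin.cons false x))) +
          (1 - (1 - 2 * e) ^ 2) *
            avg n (fun x => ((v (Fin.cons true x) - v (Fin.cons false x)) / 2) ^ 2) := by
      rw [← avg_nop n e (fun x => ((v (Fin.cons true x) - v (Fin.cons false x)) / 2) ^ 2),
        ← avg_add_mul]
      congr 1
      funext y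
      rw [Vr_cons_false]
    rw [avg_succ, hT, hF, var_succ]
    have i1 := ih (fun x => (1 - e) * v (Fin.cons true x) + e * v (Fin.cons false x))
    have i2 := ih (fun x => e * v (Fin.cons true x) + (1 - e) * v (Fin.cons false x))
    have hp := var_parallelogram n (fun x => (v (Fin.cons true x) + v (Fin.cons false x)) / 2)
      (fun x => (v (Fin.cons true x) - v (Fin.cons false x)) / 2) (1 - 2 * e)
    rw [← mixT_eq, ← mixF_eq] at hp
    have hvd := var_nonneg n (fun x => (v (Fin.cons true x) - v (Fin.cons false x)) / 2)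
    have hsq : 0 ≤ (1 - 2 * e) ^ 2 := sq_nonneg _
    have h3 : 0 ≤ (1 - (1 - 2 * e) ^ 2) * ((1 - 2 * e) ^ 2 *
        var n (fun x => (v (Fin.cons true x) - v (Fin.cons false x)) / 2)) :=
      mul_nonneg hq (mul_nonneg hsq hvd)
    have h4 : (1 - (1 - 2 * e) ^ 2) *
        (var n (fun x => (1 - e) * v (Fin.cons true x) + e * v (Fin.cons false x)) +
          var n (fun x => e * v (Fin.cons true x) + (1 - e) * v (Fin.cons false x))) =
        (1 - (1 - 2 * e) ^ 2) * (2 * var n (fun x => (v (Fin.cons true x) + v (Fin.cons false x)) / 2) +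
          2 * (1 - 2 * e) ^ 2 * var n (fun x => (v (Fin.cons true x) - v (Fin.cons false x)) / 2)) := by
      rw [hp]
    nlinarith

lemma lev_zero_succ (n : ℕ) (u : (Fin (n + 1) → Bool) → ℝ) :
    lev (n + 1) u 0 = avg n (fun x => (u (Fin.cons true x) - u (Fin.cons false x)) / 2) := by
  unfold lev
  rw [avg_succ]
  simp only [Fin.cons_zero]
  have h := avg_lin n (1 / 2) (1 / 2) (fun x => u (Fin.cons true x) * sgn true)
    (fun x => u (Fin.cons false x) * sgn false)
  have e1 : (fun x : Fin n → Bool => (u (Fin.cons true x) - u (Fin.cons false x)) / 2) =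
      (fun x => 1 / 2 * (u (Fin.cons true x) * sgn true) +
        1 / 2 * (u (Fin.cons false x) * sgn false)) := by
    funext x
    simp [sgn]
    ring
  rw [e1, h]
  ring

lemma lev_succ_succ (n : ℕ) (u : (Fin (n + 1) → Bool) → ℝ) (j : Fin n) :
    lev (n + 1) u j.succ =
      lev n (fun x => (u (Fin.cons true x) + u (Fin.cons false x)) / 2) j := by
  unfold lev
  rw [avg_succ]
  simp only [Fin.cons_succ]
  have h := avg_lin n (1 / 2) (1 / 2) (fun x => u (Fin.cons true x) * sgn (x j))
    (fun x => u (Fin.cons false x) * sgn (x j))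
  have e1 : (fun x : Fin n → Bool => (u (Fin.cons true x) + u (Fin.cons false x)) / 2 * sgn (x j)) =
      (fun x => 1 / 2 * (u (Fin.cons true x) * sgn (x j)) +
        1 / 2 * (u (Fin.cons false x) * sgn (x j))) := by
    funext x
    ring
  rw [e1, h]
  ring

lemma W2_succ (n : ℕ) (u : (Fin (n + 1) → Bool) → ℝ) :
    W2 (n + 1) u = W2 n (fun x => (u (Fin.cons true x) + u (Fin.cons false x)) / 2) +
      var n (fun x => (u (Fin.cons true x) - u (Fin.cons false x)) / 2) := by
  unfold W2
  rw [var_succ, Fin.sum_univ_succ, lev_zero_succ]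
  rw [Finset.sum_congr rfl (fun j _ => by rw [lev_succ_succ])]
  unfold var
  ring

/-- Bessel inequality on the cube: the level-one weight is at most the variance. -/
theorem W2_nonneg : ∀ (n : ℕ) (u : (Fin n → Bool) → ℝ), 0 ≤ W2 n u := by
  intro n
  induction n with
  | zero =>
    intro u
    unfold W2
    simp [var_zero]
  | succ n ih =>
    intro u
    rw [W2_succ]
    exact add_nonneg (ih _) (var_nonneg n _)

lemma lev_add_mul (n : ℕ) (a b : (Fin n → Bool) → ℝ) (c : ℝ) (j : Fin n) :
    lev n (fun x => a x + c * b x) j = lev n a j + c * lev n b j := by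
  unfold lev
  calc avg n (fun x => (a x + c * b x) * sgn (x j))
      = avg n (fun x => 1 * (a x * sgn (x j)) + c * (b x * sgn (x j))) := by
        congr 1; funext x; ring
    _ = 1 * avg n (fun x => a x * sgn (x j)) + c * avg n (fun x => b x * sgn (x j)) :=
        avg_lin n 1 c (fun x => a x * sgn (x j)) (fun x => b x * sgn (x j))
    _ = _ := by ring

lemma W2_parallelogram (n : ℕ) (a b : (Fin n → Bool) → ℝ) (c : ℝ) :
    W2 n (fun x => a x + c * b x) + W2 n (fun x => a x + (-c) * b x) =
      2 * W2 n a + 2 * c ^ 2 * W2 n b := by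
  have hv := var_parallelogram n a b c
  have hl : ∑ j, lev n (fun x => a x + c * b x) j ^ 2 +
      ∑ j, lev n (fun x => a x + (-c) * b x) j ^ 2 =
      2 * ∑ j, lev n a j ^ 2 + 2 * c ^ 2 * ∑ j, lev n b j ^ 2 := by
    rw [← Finset.sum_add_distrib, Finset.mul_sum, Finset.mul_sum, ← Finset.sum_add_distrib]
    refine Finset.sum_congr rfl (fun j _ => ?_)
    rw [lev_add_mul, lev_add_mul]
    ring
  unfold W2
  linarith

/-- The mean over `y` of the posterior weight above level one dominates `(1 - rho^2)^2` times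
the prior weight above level one. -/
theorem avg_Wr_ge (e : ℝ) (h0 : 0 < e) (h1 : e < 1) :
    ∀ (n : ℕ) (u : (Fin n → Bool) → ℝ),
      (1 - (1 - 2 * e) ^ 2) ^ 2 * W2 n u ≤ avg n (Wr n e u) := by
  have hq : 0 < 1 - (1 - 2 * e) ^ 2 := by nlinarith
  intro n
  induction n with
  | zero =>
    intro u
    have hW : W2 0 u = 0 := by
      unfold W2
      simp [var_zero]
    rw [hW, mul_zero]
    exact avg_nonneg 0 _ (fun y => Wr_nonneg e h0 h1 0 u y)
  | succ n ih =>
    intro u
    have hT : avg n (fun y => Wr (n + 1) e u (Fin.cons true y)) =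
        avg n (Wr n e (fun x => (1 - e) * u (Fin.cons true x) + e * u (Fin.cons false x))) +
          (1 - (1 - 2 * e) ^ 2) *
            avg n (Vr n e (fun x => (u (Fin.cons true x) - u (Fin.cons false x)) / 2)) := by
      rw [← avg_add_mul]
      congr 1
      funext y
      rw [Wr_cons_true n e hq.ne']
    have hF : avg n (fun y => Wr (n + 1) e u (Fin.cons false y)) =
        avg n (Wr n e (fun x => e * u (Fin.cons true x) + (1 - e) * u (Fin.cons false x))) +
          (1 - (1 - 2 * e) ^ 2) *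
            avg n (Vr n e (fun x => (u (Fin.cons true x) - u (Fin.cons false x)) / 2)) := by
      rw [← avg_add_mul]
      congr 1
      funext y
      rw [Wr_cons_false n e hq.ne']
    rw [avg_succ, hT, hF, W2_succ]
    have i1 := ih (fun x => (1 - e) * u (Fin.cons true x) + e * u (Fin.cons false x))
    have i2 := ih (fun x => e * u (Fin.cons true x) + (1 - e) * u (Fin.cons false x))
    have iv := avg_Vr_ge e h0.le h1.le n (fun x => (u (Fin.cons true x) - u (Fin.cons false x)) / 2)
    have hp := W2_parallelogram n (fun x => (u (Fin.cons true x) + u (Fin.cons false x)) / 2)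
      (fun x => (u (Fin.cons true x) - u (Fin.cons false x)) / 2) (1 - 2 * e)
    rw [← mixT_eq, ← mixF_eq] at hp
    have hwd := W2_nonneg n (fun x => (u (Fin.cons true x) - u (Fin.cons false x)) / 2)
    have hsq : 0 ≤ (1 - 2 * e) ^ 2 := sq_nonneg _
    have h3 : 0 ≤ (1 - (1 - 2 * e) ^ 2) ^ 2 * ((1 - 2 * e) ^ 2 *
        W2 n (fun x => (u (Fin.cons true x) - u (Fin.cons false x)) / 2)) :=
      mul_nonneg (sq_nonneg _) (mul_nonneg hsq hwd)
    have h4 : (1 - (1 - 2 * e) ^ 2) ^ 2 *
        (W2 n (fun x => (1 - e) * u (Fin.cons true x) + e * u (Fin.cons false x)) +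
          W2 n (fun x => e * u (Fin.cons true x) + (1 - e) * u (Fin.cons false x))) =
        (1 - (1 - 2 * e) ^ 2) ^ 2 *
          (2 * W2 n (fun x => (u (Fin.cons true x) + u (Fin.cons false x)) / 2) +
            2 * (1 - 2 * e) ^ 2 * W2 n (fun x => (u (Fin.cons true x) - u (Fin.cons false x)) / 2)) := by
      rw [hp]
    have h5 := mul_le_mul_of_nonneg_left iv hq.le
    nlinarith

end Vale.Agent.Lib.P322
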