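import Mathlib
import Vale.Agent.Lib.P322.Cube

namespace Vale.Agent.Lib.P322

open Finset

/-- The chi-square chain functional for a nonnegative function `u` on the cube, observed through
the noisy channel with crossover `e`, by recursion on the first coordinate. -/
noncomputable def Xi (e : ℝ) : (n : ℕ) → ((Fin n → Bool) → ℝ) → ℝ
  | 0, _ => 0
  | n + 1, u =>
      ((avg n (fun x => u (Fin.cons true x)) - avg n (fun x => u (Fin.cons false x))) / 2) ^ 2 /
          ((avg n (fun x => u (Fin.cons true x)) + avg n (fun x => u (Fin.cons false x))) / 2) +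
        (Xi e n (fun x => (1 - e) * u (Fin.cons true x) + e * u (Fin.cons false x)) +
          Xi e n (fun x => e * u (Fin.cons true x) + (1 - e) * u (Fin.cons false x))) / 2

lemma Xi_zero_succ (n : ℕ) (u : (Fin (n + 1) → Bool) → ℝ) :
    Xi 0 (n + 1) u =
      ((avg n (fun x => u (Fin.cons true x)) - avg n (fun x => u (Fin.cons false x))) / 2) ^ 2 /
          ((avg n (fun x => u (Fin.cons true x)) + avg n (fun x => u (Fin.cons false x))) / 2) +
        (Xi 0 n (fun x => u (Fin.cons true x)) + Xi 0 n (fun x => u (Fin.cons false x))) / 2 := by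
  rw [Xi]
  have e1 : (fun x : Fin n → Bool => (1 - (0 : ℝ)) * u (Fin.cons true x) + 0 * u (Fin.cons false x)) =
      (fun x => u (Fin.cons true x)) := by
    funext x; ring
  have e2 : (fun x : Fin n → Bool => (0 : ℝ) * u (Fin.cons true x) + (1 - 0) * u (Fin.cons false x)) =
      (fun x => u (Fin.cons false x)) := by
    funext x; ring
  rw [e1, e2]

/-- Entropy of the noisy function is at most `psi (1 - 2e)` times the chain functional. -/
theorem ent_nop_le (e : ℝ) (h0 : 0 ≤ e) (h1 : e ≤ 1 / 2) :
    ∀ (n : ℕ) (u : (Fin n → Bool) → ℝ), (∀ x, 0 ≤ u x) →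
      ent n (nop n e u) ≤ psi (1 - 2 * e) * Xi e n u := by
  intro n
  induction n with
  | zero =>
    intro u _
    rw [ent_zero, Xi]
    simp
  | succ n ih =>
    intro u hu
    have hwt : ∀ x : Fin n → Bool, 0 ≤ (1 - e) * u (Fin.cons true x) + e * u (Fin.cons false x) :=
      fun x => add_nonneg (mul_nonneg (by linarith) (hu _)) (mul_nonneg h0 (hu _))
    have hwf : ∀ x : Fin n → Bool, 0 ≤ e * u (Fin.cons true x) + (1 - e) * u (Fin.cons false x) :=
      fun x => add_nonneg (mul_nonneg h0 (hu _)) (mul_nonneg (by linarith) (hu _))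
    have hA : 0 ≤ avg n (fun x => u (Fin.cons true x)) := avg_nonneg n _ (fun x => hu _)
    have hB : 0 ≤ avg n (fun x => u (Fin.cons false x)) := avg_nonneg n _ (fun x => hu _)
    have it := ih _ hwt
    have if' := ih _ hwf
    have et : (fun y : Fin n → Bool => nop (n + 1) e u (Fin.cons true y)) =
        nop n e (fun x => (1 - e) * u (Fin.cons true x) + e * u (Fin.cons false x)) :=
      funext (fun y => nop_cons_true n e u y)
    have ef : (fun y : Fin n → Bool => nop (n + 1) e u (Fin.cons false y)) =
        nop n e (fun x => e * u (Fin.cons true x) + (1 - e) * u (Fin.cons false x)) :=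
      funext (fun y => nop_cons_false n e u y)
    rw [ent_succ, et, ef, avg_nop, avg_nop, avg_lin, avg_lin, Xi]
    have hg := gap_le hA hB (show (0 : ℝ) ≤ 1 - 2 * e by linarith) (show 1 - 2 * e ≤ 1 by linarith)
    have e1 : (1 - e) * avg n (fun x => u (Fin.cons true x)) + e * avg n (fun x => u (Fin.cons false x)) =
        (avg n (fun x => u (Fin.cons true x)) + avg n (fun x => u (Fin.cons false x))) / 2 +
          (1 - 2 * e) * ((avg n (fun x => u (Fin.cons true x)) - avg n (fun x => u (Fin.cons false x))) / 2) := by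
      ring
    have e2 : e * avg n (fun x => u (Fin.cons true x)) + (1 - e) * avg n (fun x => u (Fin.cons false x)) =
        (avg n (fun x => u (Fin.cons true x)) + avg n (fun x => u (Fin.cons false x))) / 2 -
          (1 - 2 * e) * ((avg n (fun x => u (Fin.cons true x)) - avg n (fun x => u (Fin.cons false x))) / 2) := by
      ring
    have e3 : ((1 - e) * avg n (fun x => u (Fin.cons true x)) + e * avg n (fun x => u (Fin.cons false x)) +
        (e * avg n (fun x => u (Fin.cons true x)) + (1 - e) * avg n (fun x => u (Fin.cons false x)))) / 2 =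
        (avg n (fun x => u (Fin.cons true x)) + avg n (fun x => u (Fin.cons false x))) / 2 := by
      ring
    rw [e3, e1, e2]
    linarith

lemma sq_div_convex {l d1 d2 m1 m2 : ℝ} (hl0 : 0 ≤ l) (hl1 : l ≤ 1) (hm1 : 0 ≤ m1) (hm2 : 0 ≤ m2)
    (hd1 : |d1| ≤ m1) (hd2 : |d2| ≤ m2) :
    (l * d1 + (1 - l) * d2) ^ 2 / (l * m1 + (1 - l) * m2) ≤
      l * (d1 ^ 2 / m1) + (1 - l) * (d2 ^ 2 / m2) := by
  have hl1' : 0 ≤ 1 - l := by linarith
  have hR : 0 ≤ l * (d1 ^ 2 / m1) + (1 - l) * (d2 ^ 2 / m2) :=
    add_nonneg (mul_nonneg hl0 (div_nonneg (sq_nonneg _) hm1))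
      (mul_nonneg hl1' (div_nonneg (sq_nonneg _) hm2))
  have hM : 0 ≤ l * m1 + (1 - l) * m2 := add_nonneg (mul_nonneg hl0 hm1) (mul_nonneg hl1' hm2)
  rcases eq_or_lt_of_le hM with h | h
  · rw [← h, div_zero]; exact hR
  rw [div_le_iff₀ h]
  rcases eq_or_lt_of_le hm1 with h1 | h1
  · subst h1
    have hd10 : d1 = 0 := by
      have := abs_nonneg d1
      exact abs_eq_zero.mp (le_antisymm hd1 this)
    subst hd10
    rcases eq_or_lt_of_le hm2 with h2 | h2
    · subst h2; simp at h
    · have hne : m2 ≠ 0 := ne_of_gt h2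
      have e0 : (l * 0 + (1 - l) * d2) ^ 2 =
          (l * ((0 : ℝ) ^ 2 / 0) + (1 - l) * (d2 ^ 2 / m2)) * ((1 - l) * m2) := by
        field_simp
        ring
      have e1 : l * (0 : ℝ) + (1 - l) * m2 = (1 - l) * m2 := by ring
      rw [e1, e0]
  rcases eq_or_lt_of_le hm2 with h2 | h2
  · subst h2
    have hd20 : d2 = 0 := by
      have := abs_nonneg d2
      exact abs_eq_zero.mp (le_antisymm hd2 this)
    subst hd20
    have hne : m1 ≠ 0 := ne_of_gt h1
    have e0 : (l * d1 + (1 - l) * 0) ^ 2 =
        (l * (d1 ^ 2 / m1) + (1 - l) * ((0 : ℝ) ^ 2 / 0)) * (l * m1) := by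
      field_simp
      ring
    have e1 : l * m1 + (1 - l) * (0 : ℝ) = l * m1 := by ring
    rw [e1, e0]
  obtain ⟨p, hp⟩ : ∃ p : ℝ, d1 = p * m1 := ⟨d1 / m1, by field_simp⟩
  obtain ⟨q, hq⟩ : ∃ q : ℝ, d2 = q * m2 := ⟨d2 / m2, by field_simp⟩
  subst hp hq
  have a1 : (p * m1) ^ 2 / m1 = p ^ 2 * m1 := by field_simp
  have a2 : (q * m2) ^ 2 / m2 = q ^ 2 * m2 := by field_simp
  rw [a1, a2]
  have key : 0 ≤ l * (1 - l) * m1 * m2 * (p - q) ^ 2 := by positivity
  have idn : (l * (p ^ 2 * m1) + (1 - l) * (q ^ 2 * m2)) * (l * m1 + (1 - l) * m2)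
      - (l * (p * m1) + (1 - l) * (q * m2)) ^ 2 = l * (1 - l) * m1 * m2 * (p - q) ^ 2 := by ring
  linarith

/-- The chain functional is convex on nonnegative functions. -/
theorem Xi_convex (e : ℝ) (h0 : 0 ≤ e) (h1 : e ≤ 1) :
    ∀ (n : ℕ) (u v : (Fin n → Bool) → ℝ) (l : ℝ), (∀ x, 0 ≤ u x) → (∀ x, 0 ≤ v x) →
      0 ≤ l → l ≤ 1 →
      Xi e n (fun x => l * u x + (1 - l) * v x) ≤ l * Xi e n u + (1 - l) * Xi e n v := by
  intro n
  induction n with
  | zero =>
    intro u v l _ _ _ _
    simp [Xi]
  | succ n ih =>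
    intro u v l hu hv hl0 hl1
    have h1e : 0 ≤ 1 - e := by linarith
    have hAu : 0 ≤ avg n (fun x => u (Fin.cons true x)) := avg_nonneg n _ (fun x => hu _)
    have hBu : 0 ≤ avg n (fun x => u (Fin.cons false x)) := avg_nonneg n _ (fun x => hu _)
    have hAv : 0 ≤ avg n (fun x => v (Fin.cons true x)) := avg_nonneg n _ (fun x => hv _)
    have hBv : 0 ≤ avg n (fun x => v (Fin.cons false x)) := avg_nonneg n _ (fun x => hv _)
    have i1 := ih (fun x => (1 - e) * u (Fin.cons true x) + e * u (Fin.cons false x))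
      (fun x => (1 - e) * v (Fin.cons true x) + e * v (Fin.cons false x)) l
      (fun x => add_nonneg (mul_nonneg h1e (hu _)) (mul_nonneg h0 (hu _)))
      (fun x => add_nonneg (mul_nonneg h1e (hv _)) (mul_nonneg h0 (hv _))) hl0 hl1
    have i2 := ih (fun x => e * u (Fin.cons true x) + (1 - e) * u (Fin.cons false x))
      (fun x => e * v (Fin.cons true x) + (1 - e) * v (Fin.cons false x)) l
      (fun x => add_nonneg (mul_nonneg h0 (hu _)) (mul_nonneg h1e (hu _)))
      (fun x => add_nonneg (mul_nonneg h0 (hv _)) (mul_nonneg h1e (hv _))) hl0 hl1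
    have ewt : (fun x : Fin n → Bool => (1 - e) * (l * u (Fin.cons true x) + (1 - l) * v (Fin.cons true x))
        + e * (l * u (Fin.cons false x) + (1 - l) * v (Fin.cons false x))) =
        (fun x => l * ((1 - e) * u (Fin.cons true x) + e * u (Fin.cons false x))
          + (1 - l) * ((1 - e) * v (Fin.cons true x) + e * v (Fin.cons false x))) := by
      funext x; ring
    have ewf : (fun x : Fin n → Bool => e * (l * u (Fin.cons true x) + (1 - l) * v (Fin.cons true x))
        + (1 - e) * (l * u (Fin.cons false x) + (1 - l) * v (Fin.cons false x))) =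
        (fun x => l * (e * u (Fin.cons true x) + (1 - e) * u (Fin.cons false x))
          + (1 - l) * (e * v (Fin.cons true x) + (1 - e) * v (Fin.cons false x))) := by
      funext x; ring
    have hs := sq_div_convex hl0 hl1
      (m1 := (avg n (fun x => u (Fin.cons true x)) + avg n (fun x => u (Fin.cons false x))) / 2)
      (m2 := (avg n (fun x => v (Fin.cons true x)) + avg n (fun x => v (Fin.cons false x))) / 2)
      (d1 := (avg n (fun x => u (Fin.cons true x)) - avg n (fun x => u (Fin.cons false x))) / 2)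
      (d2 := (avg n (fun x => v (Fin.cons true x)) - avg n (fun x => v (Fin.cons false x))) / 2)
      (by linarith) (by linarith) (by rw [abs_le]; constructor <;> linarith)
      (by rw [abs_le]; constructor <;> linarith)
    simp only [Xi]
    rw [ewt, ewf, avg_lin n l (1 - l) (fun x => u (Fin.cons true x)) (fun x => v (Fin.cons true x)),
      avg_lin n l (1 - l) (fun x => u (Fin.cons false x)) (fun x => v (Fin.cons false x))]
    have e1 : (l * avg n (fun x => u (Fin.cons true x)) + (1 - l) * avg n (fun x => v (Fin.cons true x))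
        - (l * avg n (fun x => u (Fin.cons false x)) + (1 - l) * avg n (fun x => v (Fin.cons false x)))) / 2
        = l * ((avg n (fun x => u (Fin.cons true x)) - avg n (fun x => u (Fin.cons false x))) / 2)
          + (1 - l) * ((avg n (fun x => v (Fin.cons true x)) - avg n (fun x => v (Fin.cons false x))) / 2) := by
      ring
    have e2 : (l * avg n (fun x => u (Fin.cons true x)) + (1 - l) * avg n (fun x => v (Fin.cons true x))
        + (l * avg n (fun x => u (Fin.cons false x)) + (1 - l) * avg n (fun x => v (Fin.cons false x)))) / 2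
        = l * ((avg n (fun x => u (Fin.cons true x)) + avg n (fun x => u (Fin.cons false x))) / 2)
          + (1 - l) * ((avg n (fun x => v (Fin.cons true x)) + avg n (fun x => v (Fin.cons false x))) / 2) := by
      ring
    rw [e1, e2]
    linarith

/-- Revealing clean past coordinates can only increase the chain functional. -/
theorem Xi_le_clean (e : ℝ) (h0 : 0 ≤ e) (h1 : e ≤ 1) :
    ∀ (n : ℕ) (u : (Fin n → Bool) → ℝ), (∀ x, 0 ≤ u x) → Xi e n u ≤ Xi 0 n u := by
  intro n
  induction n with
  | zero =>
    intro u _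
    simp [Xi]
  | succ n ih =>
    intro u hu
    rw [Xi_zero_succ, Xi]
    have c1 := Xi_convex e h0 h1 n (fun x => u (Fin.cons true x)) (fun x => u (Fin.cons false x))
      (1 - e) (fun x => hu _) (fun x => hu _) (by linarith) (by linarith)
    have c2 := Xi_convex e h0 h1 n (fun x => u (Fin.cons true x)) (fun x => u (Fin.cons false x))
      e (fun x => hu _) (fun x => hu _) h0 h1
    have e1 : (fun x : Fin n → Bool => (1 - e) * u (Fin.cons true x) + (1 - (1 - e)) * u (Fin.cons false x))
        = (fun x => (1 - e) * u (Fin.cons true x) + e * u (Fin.cons false x)) := by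
      funext x; ring
    rw [e1] at c1
    have it := ih (fun x => u (Fin.cons true x)) (fun x => hu _)
    have if' := ih (fun x => u (Fin.cons false x)) (fun x => hu _)
    linarith

/-- The clean chain functional is at most twice the entropy functional. -/
theorem Xi_clean_le : ∀ (n : ℕ) (u : (Fin n → Bool) → ℝ), (∀ x, 0 ≤ u x) →
    Xi 0 n u ≤ 2 * ent n u := by
  intro n
  induction n with
  | zero =>
    intro u _
    rw [ent_zero]
    simp [Xi]
  | succ n ih =>
    intro u hu
    rw [Xi_zero_succ, ent_succ]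
    have it := ih (fun x => u (Fin.cons true x)) (fun x => hu _)
    have if' := ih (fun x => u (Fin.cons false x)) (fun x => hu _)
    have hg := gap_ge (A := avg n (fun x => u (Fin.cons true x)))
      (B := avg n (fun x => u (Fin.cons false x))) (avg_nonneg n _ (fun x => hu _))
      (avg_nonneg n _ (fun x => hu _))
    linarith

end Vale.Agent.Lib.P322
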