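import Mathlib
import Vale.Agent.Lib.P322.Cube

namespace Vale.Agent.Lib.P322

open Finset

/-- Indicator of `f x = true` as a real number. -/
noncomputable def ind {n : ℕ} (f : (Fin n → Bool) → Bool) (x : Fin n → Bool) : ℝ :=
  if f x = true then 1 else 0

lemma ind_nonneg {n : ℕ} (f : (Fin n → Bool) → Bool) (x : Fin n → Bool) : 0 ≤ ind f x := by
  unfold ind; split_ifs <;> norm_num

lemma ind_le_one {n : ℕ} (f : (Fin n → Bool) → Bool) (x : Fin n → Bool) : ind f x ≤ 1 := by
  unfold ind; split_ifs <;> norm_num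

lemma ind_sq {n : ℕ} (f : (Fin n → Bool) → Bool) (x : Fin n → Bool) : ind f x ^ 2 = ind f x := by
  unfold ind; split_ifs <;> norm_num

lemma joint_true (n : ℕ) (e : ℝ) (f : (Fin n → Bool) → Bool) (y : Fin n → Bool) :
    joint n e f true y = (1 / 2 : ℝ) ^ n * nop n e (ind f) y := by
  unfold joint nop ind
  rw [Finset.mul_sum]
  refine Finset.sum_congr rfl (fun x _ => ?_)
  split_ifs <;> ring

lemma joint_false (n : ℕ) (e : ℝ) (f : (Fin n → Bool) → Bool) (y : Fin n → Bool) :
    joint n e f false y = (1 / 2 : ℝ) ^ n * nop n e (fun x => 1 - ind f x) y := by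
  unfold joint nop ind
  rw [Finset.mul_sum]
  refine Finset.sum_congr rfl (fun x _ => ?_)
  cases h : f x <;> simp [h]

lemma nop_add_compl (n : ℕ) (e : ℝ) (u : (Fin n → Bool) → ℝ) (y : Fin n → Bool) :
    nop n e u y + nop n e (fun x => 1 - u x) y = 1 := by
  have h := sum_bsc_left e n y
  unfold nop
  rw [← Finset.sum_add_distrib]
  rw [Finset.sum_congr rfl (fun x _ =>
    (by ring : bsc n e x y * u x + bsc n e x y * (1 - u x) = bsc n e x y))]
  exact h

lemma nop_compl (n : ℕ) (e : ℝ) (u : (Fin n → Bool) → ℝ) (y : Fin n → Bool) :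
    nop n e (fun x => 1 - u x) y = 1 - nop n e u y := by
  have := nop_add_compl n e u y
  linarith

/-- The contribution of one value of the function to the mutual information. -/
lemma mi_class (n : ℕ) (v : (Fin n → Bool) → ℝ) (hv : ∀ y, 0 ≤ v y) :
    (∑ y, (1 / 2 : ℝ) ^ n * v y *
      Real.logb 2 ((1 / 2 : ℝ) ^ n * v y / (avg n v * (1 / 2 : ℝ) ^ n))) * Real.log 2 =
      ent n v := by
  have hc : (0 : ℝ) < (1 / 2 : ℝ) ^ n := by positivity
  have hl2 : Real.log 2 ≠ 0 := by
    have := Real.log_pos (by norm_num : (1 : ℝ) < 2)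
    exact this.ne'
  have hterm : ∀ y, (1 / 2 : ℝ) ^ n * v y *
      Real.logb 2 ((1 / 2 : ℝ) ^ n * v y / (avg n v * (1 / 2 : ℝ) ^ n)) * Real.log 2 =
      (1 / 2 : ℝ) ^ n * eta (v y) - (1 / 2 : ℝ) ^ n * v y * Real.log (avg n v) := by
    intro y
    rcases eq_or_lt_of_le (hv y) with h | h
    · rw [← h]; simp [eta]
    · have hP : 0 < avg n v := by
        unfold avg
        refine mul_pos hc ?_
        exact lt_of_lt_of_le h (Finset.single_le_sum (fun z _ => hv z) (Finset.mem_univ y))
      have e1 : (1 / 2 : ℝ) ^ n * v y / (avg n v * (1 / 2 : ℝ) ^ n) = v y / avg n v := by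
        field_simp
      rw [e1, Real.logb, Real.log_div h.ne' hP.ne']
      unfold eta
      field_simp
  rw [Finset.sum_mul]
  rw [Finset.sum_congr rfl (fun y _ => hterm y), Finset.sum_sub_distrib]
  unfold ent
  have e2 : ∑ y, (1 / 2 : ℝ) ^ n * eta (v y) = avg n (fun x => eta (v x)) := by
    unfold avg; rw [Finset.mul_sum]
  have e3 : ∑ y, (1 / 2 : ℝ) ^ n * v y * Real.log (avg n v) = eta (avg n v) := by
    rw [← Finset.sum_mul, ← Finset.mul_sum]
    rfl
  rw [e2, e3]

/-- Mutual information between `f X` and `Y`, in nats, as a sum of two entropy functionals. -/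
theorem mutualInfo_joint (n : ℕ) (e : ℝ) (h0 : 0 ≤ e) (h1 : e ≤ 1)
    (f : (Fin n → Bool) → Bool) :
    mutualInfo (joint n e f) * Real.log 2 =
      ent n (nop n e (ind f)) + ent n (nop n e (fun x => 1 - ind f x)) := by
  have hcol : ∀ y, ∑ a : Bool, joint n e f a y = (1 / 2 : ℝ) ^ n := by
    intro y
    rw [Fintype.sum_bool, joint_true, joint_false, ← mul_add, nop_add_compl, mul_one]
  have hrowt : ∑ y, joint n e f true y = avg n (nop n e (ind f)) := by
    unfold avg; rw [Finset.mul_sum]
    exact Finset.sum_congr rfl (fun y _ => joint_true n e f y)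
  have hrowf : ∑ y, joint n e f false y = avg n (nop n e (fun x => 1 - ind f x)) := by
    unfold avg; rw [Finset.mul_sum]
    exact Finset.sum_congr rfl (fun y _ => joint_false n e f y)
  unfold mutualInfo
  rw [Fintype.sum_bool, add_mul]
  have ht := mi_class n (nop n e (ind f))
    (fun y => nop_nonneg n e h0 h1 _ (fun x => ind_nonneg f x) y)
  have hf := mi_class n (nop n e (fun x => 1 - ind f x))
    (fun y => nop_nonneg n e h0 h1 _ (fun x => by have := ind_le_one f x; linarith) y)
  rw [← ht, ← hf]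
  congr 1
  · congr 1
    refine Finset.sum_congr rfl (fun y _ => ?_)
    rw [hcol, hrowt, joint_true]
  · congr 1
    refine Finset.sum_congr rfl (fun y _ => ?_)
    rw [hcol, hrowf, joint_false]

end Vale.Agent.Lib.P322
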