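import Mathlib
import Vale.Agent.Lib.P322.Info
import Vale.Agent.Lib.P322.Bessel

namespace Vale.Agent.Lib.P322

open Finset

lemma nop_zero_fun (n : ℕ) (e : ℝ) (y : Fin n → Bool) : nop n e (fun _ => 0) y = 0 := by
  unfold nop
  simp

lemma cov_const (e c : ℝ) : ∀ (n : ℕ) (j : Fin n) (y : Fin n → Bool),
    cov n e (fun _ => c) j y = 0 := by
  intro n
  induction n with
  | zero => intro j; exact j.elim0
  | succ n ih =>
    intro j y
    refine Fin.consCases (fun b y' => ?_) y
    refine Fin.cases ?_ (fun j' => ?_) j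
    · rw [cov_zero_cons]
      have h : (fun _ : Fin n → Bool => (c - c) / 2) = (fun _ => (0 : ℝ)) := by
        funext x; ring
      rw [h, nop_zero_fun, mul_zero]
    · cases b with
      | true =>
        rw [cov_succ_cons_true]
        have h : (fun _ : Fin n → Bool => (1 - e) * c + e * c) = (fun _ => c) := by
          funext x; ring
        rw [h]
        exact ih j' y'
      | false =>
        rw [cov_succ_cons_false]
        have h : (fun _ : Fin n → Bool => e * c + (1 - e) * c) = (fun _ => c) := by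
          funext x; ring
        rw [h]
        exact ih j' y'

lemma cov_compl (n : ℕ) (e : ℝ) (u : (Fin n → Bool) → ℝ) (j : Fin n) (y : Fin n → Bool) :
    cov n e (fun x => 1 - u x) j y = -cov n e u j y := by
  have h := cov_const e 1 n j y
  unfold cov at h ⊢
  have e1 : ∀ x, bsc n e x y * (1 - u x) * (sgn (x j) - (1 - 2 * e) * sgn (y j)) =
      bsc n e x y * 1 * (sgn (x j) - (1 - 2 * e) * sgn (y j)) -
        bsc n e x y * u x * (sgn (x j) - (1 - 2 * e) * sgn (y j)) := fun x => by ring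
  rw [Finset.sum_congr rfl (fun x _ => e1 x), Finset.sum_sub_distrib, h, zero_sub]

lemma Vr_ind (n : ℕ) (e : ℝ) (f : (Fin n → Bool) → Bool) (y : Fin n → Bool) :
    Vr n e (ind f) y = nop n e (ind f) y * (1 - nop n e (ind f) y) := by
  unfold Vr
  have h : (fun x => ind f x ^ 2) = ind f := funext (ind_sq f)
  rw [h]
  ring

lemma nop_le_one (n : ℕ) (e : ℝ) (h0 : 0 ≤ e) (h1 : e ≤ 1) (u : (Fin n → Bool) → ℝ)
    (hu : ∀ x, u x ≤ 1) (y : Fin n → Bool) : nop n e u y ≤ 1 := by
  have h := nop_nonneg n e h0 h1 (fun x => 1 - u x) (fun x => by have := hu x; linarith) y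
  rw [nop_compl] at h
  linarith

lemma bessel_point {q G S W : ℝ} (hq : 0 < q) (hG0 : 0 ≤ G) (hG1 : G ≤ 1) (hS : 0 ≤ S)
    (hW : 0 ≤ W) (hSW : S = q * (G * (1 - G) - W)) :
    S / G + S / (1 - G) ≤ q * (1 - 4 * W) := by
  rcases eq_or_lt_of_le hG0 with h | h
  · have hG : G = 0 := h.symm
    have hS0 : S = 0 := by
      rw [hG] at hSW
      have : S = -(q * W) := by rw [hSW]; ring
      have : 0 ≤ q * W := mul_nonneg hq.le hW
      linarith
    have hW0 : W = 0 := by
      rw [hG, hS0] at hSW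
      have : q * W = 0 := by linarith
      rcases mul_eq_zero.mp this with h' | h'
      · exact absurd h' hq.ne'
      · exact h'
    rw [hS0, hW0]
    simp
    exact hq.le
  rcases eq_or_lt_of_le hG1 with h' | h'
  · have hS0 : S = 0 := by
      rw [h'] at hSW
      have : S = -(q * W) := by rw [hSW]; ring
      have : 0 ≤ q * W := mul_nonneg hq.le hW
      linarith
    have hW0 : W = 0 := by
      rw [h', hS0] at hSW
      have : q * W = 0 := by linarith
      rcases mul_eq_zero.mp this with h'' | h''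
      · exact absurd h'' hq.ne'
      · exact h''
    rw [hS0, hW0]
    simp
    exact hq.le
  have h1G : 0 < 1 - G := by linarith
  rw [div_add_div _ _ h.ne' h1G.ne', div_le_iff₀ (mul_pos h h1G), hSW]
  have := mul_nonneg hq.le (mul_nonneg hW (sq_nonneg (1 - 2 * G)))
  nlinarith

/-- The two level-one functionals of a Boolean function and its complement are together at
most `(1 - rho^2) (1 - 4 (1 - rho^2)^2 W2)`. -/
theorem Rf_add_le (n : ℕ) (e : ℝ) (h0 : 0 < e) (h1 : e < 1) (f : (Fin n → Bool) → Bool) :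
    Rf n e (ind f) + Rf n e (fun x => 1 - ind f x) ≤
      (1 - (1 - 2 * e) ^ 2) * (1 - 4 * ((1 - (1 - 2 * e) ^ 2) ^ 2 * W2 n (ind f))) := by
  have hq : 0 < 1 - (1 - 2 * e) ^ 2 := by nlinarith
  have hpt : ∀ y, (∑ j, cov n e (ind f) j y ^ 2 / nop n e (ind f) y) +
      (∑ j, cov n e (fun x => 1 - ind f x) j y ^ 2 / nop n e (fun x => 1 - ind f x) y) ≤
      1 * ((1 - (1 - 2 * e) ^ 2) * 1) + (-(4 * (1 - (1 - 2 * e) ^ 2))) * Wr n e (ind f) y := by
    intro y
    have hG0 := nop_nonneg n e h0.le h1.le (ind f) (fun x => ind_nonneg f x) y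
    have hG1 := nop_le_one n e h0.le h1.le (ind f) (fun x => ind_le_one f x) y
    have hW := Wr_nonneg e h0 h1 n (ind f) y
    have hS : 0 ≤ ∑ j, cov n e (ind f) j y ^ 2 := Finset.sum_nonneg (fun j _ => sq_nonneg _)
    have hSW : ∑ j, cov n e (ind f) j y ^ 2 = (1 - (1 - 2 * e) ^ 2) *
        (nop n e (ind f) y * (1 - nop n e (ind f) y) - Wr n e (ind f) y) := by
      rw [← Vr_ind]
      unfold Wr
      field_simp
      ring
    have hb := bessel_point hq hG0 hG1 hS hW hSW
    have hA : ∑ j, cov n e (ind f) j y ^ 2 / nop n e (ind f) y =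
        (∑ j, cov n e (ind f) j y ^ 2) / nop n e (ind f) y := (Finset.sum_div _ _ _).symm
    have hB : ∑ j, cov n e (fun x => 1 - ind f x) j y ^ 2 / nop n e (fun x => 1 - ind f x) y =
        (∑ j, cov n e (ind f) j y ^ 2) / (1 - nop n e (ind f) y) := by
      rw [nop_compl, ← Finset.sum_div]
      congr 1
      refine Finset.sum_congr rfl (fun j _ => ?_)
      rw [cov_compl, neg_sq]
    rw [hA, hB]
    linarith
  unfold Rf
  rw [← avg_add]
  have hm := avg_mono n _ _ hpt
  rw [avg_lin n 1 (-(4 * (1 - (1 - 2 * e) ^ 2))) (fun _ => (1 - (1 - 2 * e) ^ 2) * 1)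
    (Wr n e (ind f)), avg_const] at hm
  have hw := avg_Wr_ge e h0 h1 n (ind f)
  nlinarith

/-- Mutual information bound in nats, in terms of the weight above level one of the indicator. -/
theorem mutualInfo_le_W2 (n : ℕ) (e : ℝ) (h0 : 0 < e) (h1 : e ≤ 1 / 2)
    (f : (Fin n → Bool) → Bool) :
    mutualInfo (joint n e f) * Real.log 2 ≤
      (1 - 2 * e) ^ 2 / (2 * (1 - (1 - 2 * e) ^ 2)) *
        (1 - 4 * ((1 - (1 - 2 * e) ^ 2) ^ 2 * W2 n (ind f))) := by
  have he1 : e < 1 := by linarith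
  have hq : 0 < 1 - (1 - 2 * e) ^ 2 := by nlinarith
  rw [mutualInfo_joint n e h0.le he1.le f]
  have a1 := ent_nop_le_Rf e h0 h1 n (ind f) (fun x => ind_nonneg f x)
  have a2 := ent_nop_le_Rf e h0 h1 n (fun x => 1 - ind f x)
    (fun x => by have := ind_le_one f x; linarith)
  have hR := Rf_add_le n e h0 he1 f
  have hK : 0 ≤ (1 - 2 * e) ^ 2 / (2 * (1 - (1 - 2 * e) ^ 2) ^ 2) := by positivity
  have hm := mul_le_mul_of_nonneg_left hR hK
  have e1 : (1 - 2 * e) ^ 2 / (2 * (1 - (1 - 2 * e) ^ 2) ^ 2) *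
      ((1 - (1 - 2 * e) ^ 2) * (1 - 4 * ((1 - (1 - 2 * e) ^ 2) ^ 2 * W2 n (ind f)))) =
      (1 - 2 * e) ^ 2 / (2 * (1 - (1 - 2 * e) ^ 2)) *
        (1 - 4 * ((1 - (1 - 2 * e) ^ 2) ^ 2 * W2 n (ind f))) := by
    field_simp
  rw [e1] at hm
  linarith

lemma lev_const (c : ℝ) : ∀ (n : ℕ) (j : Fin n), lev n (fun _ => c) j = 0 := by
  intro n
  induction n with
  | zero => intro j; exact j.elim0
  | succ n ih =>
    intro j
    refine Fin.cases ?_ (fun j' => ?_) j
    · rw [lev_zero_succ]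
      have h : (fun _ : Fin n → Bool => (c - c) / 2) = (fun _ => (0 : ℝ)) := by
        funext x; ring
      rw [h, avg_const]
    · rw [lev_succ_succ]
      have h : (fun _ : Fin n → Bool => (c + c) / 2) = (fun _ => c) := by
        funext x; ring
      rw [h]
      exact ih j'

lemma sgn_eq_ind {n : ℕ} (f : (Fin n → Bool) → Bool) (x : Fin n → Bool) :
    sgn (f x) = 2 * ind f x + (-1) * 1 := by
  unfold sgn ind
  split_ifs <;> norm_num

lemma div_two_pow (n : ℕ) (s : ℝ) : s / 2 ^ n = (1 / 2 : ℝ) ^ n * s := by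
  rw [one_div, inv_pow, div_eq_inv_mul]

lemma fmean_eq (n : ℕ) (f : (Fin n → Bool) → Bool) : fmean n f = 2 * avg n (ind f) - 1 := by
  have h : fmean n f = avg n (fun x => sgn (f x)) := by
    unfold fmean avg
    exact div_two_pow n _
  rw [h]
  have e1 : (fun x => sgn (f x)) = (fun x => 2 * ind f x + (-1) * (fun _ => (1 : ℝ)) x) :=
    funext (fun x => sgn_eq_ind f x)
  rw [e1, avg_lin, avg_const]
  ring

lemma fcoef_eq (n : ℕ) (f : (Fin n → Bool) → Bool) (j : Fin n) :
    fcoef n f j = 2 * lev n (ind f) j := by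
  have h : fcoef n f j = avg n (fun x => sgn (f x) * sgn (x j)) := by
    unfold fcoef avg
    exact div_two_pow n _
  rw [h]
  have e1 : (fun x : Fin n → Bool => sgn (f x) * sgn (x j)) =
      (fun x => 2 * (ind f x * sgn (x j)) + (-1) * ((fun _ => (1 : ℝ)) x * sgn (x j))) := by
    funext x
    rw [sgn_eq_ind]
    ring
  rw [e1, avg_lin]
  have h0 := lev_const 1 n j
  unfold lev at h0 ⊢
  rw [h0]
  ring

lemma highWeight_eq (n : ℕ) (f : (Fin n → Bool) → Bool) :
    highWeight n f = 4 * W2 n (ind f) := by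
  unfold highWeight W2 var
  rw [fmean_eq, Finset.sum_congr rfl (fun j _ => by rw [fcoef_eq, mul_pow])]
  have h : (fun x => ind f x ^ 2) = ind f := funext (ind_sq f)
  rw [h, ← Finset.mul_sum]
  ring

theorem highWeight_nonneg (n : ℕ) (f : (Fin n → Bool) → Bool) : 0 ≤ highWeight n f := by
  rw [highWeight_eq]
  have := W2_nonneg n (ind f)
  linarith

/-- Universal bound on the mutual information, in bits. -/
theorem mutualInfo_le_highWeight (n : ℕ) (e : ℝ) (h0 : 0 < e) (h1 : e ≤ 1 / 2)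
    (f : (Fin n → Bool) → Bool) :
    mutualInfo (joint n e f) ≤
      (1 - 2 * e) ^ 2 / (2 * Real.log 2 * (1 - (1 - 2 * e) ^ 2)) *
        (1 - (1 - (1 - 2 * e) ^ 2) ^ 2 * highWeight n f) := by
  have h := mutualInfo_le_W2 n e h0 h1 f
  have hl : 0 < Real.log 2 := Real.log_pos (by norm_num)
  have hq : 0 < 1 - (1 - 2 * e) ^ 2 := by nlinarith
  rw [highWeight_eq]
  rw [← le_div_iff₀ hl] at h
  refine le_trans h (le_of_eq ?_)
  field_simp

/-- The Courtade-Kumar inequality for functions with enough Fourier weight above degree one. -/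
theorem ck_of_highWeight (n : ℕ) (e : ℝ) (h0 : 0 < e) (h1 : e ≤ 1 / 2)
    (f : (Fin n → Bool) → Bool)
    (hW : (1 - 2 * e) ^ 2 ≤ (1 - (1 - 2 * e) ^ 2) ^ 2 * highWeight n f) :
    mutualInfo (joint n e f) ≤ 1 - h2 e := by
  have h := mutualInfo_le_W2 n e h0 h1 f
  have hl : 0 < Real.log 2 := Real.log_pos (by norm_num)
  have hq : 0 < 1 - (1 - 2 * e) ^ 2 := by nlinarith
  rw [highWeight_eq] at hW
  have hp := psi_ge (t := 1 - 2 * e) (by rw [abs_le]; constructor <;> linarith)
  rw [psi_eq h0.le (by linarith)] at hp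
  have hK : 0 ≤ (1 - 2 * e) ^ 2 / (2 * (1 - (1 - 2 * e) ^ 2)) := by positivity
  have hb : (1 - 2 * e) ^ 2 / (2 * (1 - (1 - 2 * e) ^ 2)) *
      (1 - 4 * ((1 - (1 - 2 * e) ^ 2) ^ 2 * W2 n (ind f))) ≤
      (1 - 2 * e) ^ 2 / (2 * (1 - (1 - 2 * e) ^ 2)) * (1 - (1 - 2 * e) ^ 2) :=
    mul_le_mul_of_nonneg_left (by linarith) hK
  have e1 : (1 - 2 * e) ^ 2 / (2 * (1 - (1 - 2 * e) ^ 2)) * (1 - (1 - 2 * e) ^ 2) =
      (1 - 2 * e) ^ 2 / 2 := by
    field_simp
  rw [e1] at hb
  have hfin : mutualInfo (joint n e f) * Real.log 2 ≤ Real.log 2 - Real.binEntropy e := by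
    linarith
  unfold h2
  rw [← sub_nonneg] at hfin ⊢
  have e2 : 1 - Real.binEntropy e / Real.log 2 - mutualInfo (joint n e f) =
      (Real.log 2 - Real.binEntropy e - mutualInfo (joint n e f) * Real.log 2) / Real.log 2 := by
    field_simp
  rw [e2]
  exact div_nonneg hfin hl.le

end Vale.Agent.Lib.P322
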