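import Mathlib
import Vale.Agent.Lib.P322.Universal

namespace Vale.Agent.Lib.P322

open Finset

lemma avg_half_sub (n : ℕ) (u : (Fin (n + 1) → Bool) → ℝ) :
    avg n (fun x => (u (Fin.cons true x) - u (Fin.cons false x)) / 2) =
      (avg n (fun x => u (Fin.cons true x)) - avg n (fun x => u (Fin.cons false x))) / 2 := by
  have h := avg_lin n (1 / 2) (-(1 / 2)) (fun x => u (Fin.cons true x))
    (fun x => u (Fin.cons false x))
  have e' : (fun x : Fin n → Bool => (u (Fin.cons true x) - u (Fin.cons false x)) / 2) =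
      (fun x => 1 / 2 * u (Fin.cons true x) + -(1 / 2) * u (Fin.cons false x)) := by
    funext x; ring
  rw [e', h]; ring

/-- Sedrakyan bounds for the two head terms of `Rf_succ`. -/
lemma sed_bounds (n : ℕ) (e : ℝ) (h0 : 0 < e) (h1 : e ≤ 1 / 2) (u : (Fin (n + 1) → Bool) → ℝ)
    (hu : ∀ x, 0 ≤ u x) (hx : ∃ x, 0 < u x) :
    ((1 - (1 - 2 * e) ^ 2) * ((avg n (fun x => u (Fin.cons true x)) -
          avg n (fun x => u (Fin.cons false x))) / 2)) ^ 2 /
        ((avg n (fun x => u (Fin.cons true x)) + avg n (fun x => u (Fin.cons false x))) / 2 +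
          (1 - 2 * e) * ((avg n (fun x => u (Fin.cons true x)) -
            avg n (fun x => u (Fin.cons false x))) / 2)) ≤
      avg n (fun y => ((1 - (1 - 2 * e) ^ 2) *
          nop n e (fun x => (u (Fin.cons true x) - u (Fin.cons false x)) / 2) y) ^ 2 /
          nop n e (fun x => (1 - e) * u (Fin.cons true x) + e * u (Fin.cons false x)) y) ∧
    ((1 - (1 - 2 * e) ^ 2) * ((avg n (fun x => u (Fin.cons true x)) -
          avg n (fun x => u (Fin.cons false x))) / 2)) ^ 2 /
        ((avg n (fun x => u (Fin.cons true x)) + avg n (fun x => u (Fin.cons false x))) / 2 -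
          (1 - 2 * e) * ((avg n (fun x => u (Fin.cons true x)) -
            avg n (fun x => u (Fin.cons false x))) / 2)) ≤
      avg n (fun y => ((1 - (1 - 2 * e) ^ 2) *
          nop n e (fun x => (u (Fin.cons true x) - u (Fin.cons false x)) / 2) y) ^ 2 /
          nop n e (fun x => e * u (Fin.cons true x) + (1 - e) * u (Fin.cons false x)) y) := by
  obtain ⟨x0, hx0pos⟩ := hx
  have he1 : e < 1 := by linarith
  have hwt : ∀ x : Fin n → Bool,
      0 ≤ (1 - e) * u (Fin.cons true x) + e * u (Fin.cons false x) :=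
    fun x => add_nonneg (mul_nonneg (by linarith) (hu _)) (mul_nonneg h0.le (hu _))
  have hwf : ∀ x : Fin n → Bool,
      0 ≤ e * u (Fin.cons true x) + (1 - e) * u (Fin.cons false x) :=
    fun x => add_nonneg (mul_nonneg h0.le (hu _)) (mul_nonneg (by linarith) (hu _))
  have hx0' : x0 = Fin.cons (x0 0) (Fin.tail x0) := (Fin.cons_self_tail x0).symm
  have hex : 0 < u (Fin.cons true (Fin.tail x0)) + u (Fin.cons false (Fin.tail x0)) := by
    cases hb : x0 0 with
    | true =>
      rw [hb] at hx0'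
      rw [← hx0']
      have := hu (Fin.cons false (Fin.tail x0))
      linarith
    | false =>
      rw [hb] at hx0'
      rw [← hx0']
      have := hu (Fin.cons true (Fin.tail x0))
      linarith
  have hwtp : ∃ x : Fin n → Bool,
      0 < (1 - e) * u (Fin.cons true x) + e * u (Fin.cons false x) := by
    refine ⟨Fin.tail x0, ?_⟩
    have a1 := hu (Fin.cons true (Fin.tail x0))
    have a2 := hu (Fin.cons false (Fin.tail x0))
    nlinarith
  have hwfp : ∃ x : Fin n → Bool,
      0 < e * u (Fin.cons true x) + (1 - e) * u (Fin.cons false x) := by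
    refine ⟨Fin.tail x0, ?_⟩
    have a1 := hu (Fin.cons true (Fin.tail x0))
    have a2 := hu (Fin.cons false (Fin.tail x0))
    nlinarith
  have sT := avg_sq_div_le n
    (fun y => (1 - (1 - 2 * e) ^ 2) *
      nop n e (fun x => (u (Fin.cons true x) - u (Fin.cons false x)) / 2) y)
    (nop n e (fun x => (1 - e) * u (Fin.cons true x) + e * u (Fin.cons false x)))
    (nop_pos n e h0 he1 _ hwt hwtp)
  have sF := avg_sq_div_le n
    (fun y => (1 - (1 - 2 * e) ^ 2) *
      nop n e (fun x => (u (Fin.cons true x) - u (Fin.cons false x)) / 2) y)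
    (nop n e (fun x => e * u (Fin.cons true x) + (1 - e) * u (Fin.cons false x)))
    (nop_pos n e h0 he1 _ hwf hwfp)
  rw [avg_mul_left, avg_nop, avg_nop, avg_half_sub, avg_lin] at sT sF
  have e1 : (1 - e) * avg n (fun x => u (Fin.cons true x)) + e * avg n (fun x => u (Fin.cons false x)) =
      (avg n (fun x => u (Fin.cons true x)) + avg n (fun x => u (Fin.cons false x))) / 2 +
        (1 - 2 * e) * ((avg n (fun x => u (Fin.cons true x)) - avg n (fun x => u (Fin.cons false x))) / 2) := by
    ring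
  have e2 : e * avg n (fun x => u (Fin.cons true x)) + (1 - e) * avg n (fun x => u (Fin.cons false x)) =
      (avg n (fun x => u (Fin.cons true x)) + avg n (fun x => u (Fin.cons false x))) / 2 -
        (1 - 2 * e) * ((avg n (fun x => u (Fin.cons true x)) - avg n (fun x => u (Fin.cons false x))) / 2) := by
    ring
  rw [e1] at sT
  rw [e2] at sF
  exact ⟨sT, sF⟩

/-- First coordinate treated exactly, the others through the level-one functional. -/
lemma ent_nop_first (n : ℕ) (e : ℝ) (h0 : 0 < e) (h1 : e ≤ 1 / 2)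
    (u : (Fin (n + 1) → Bool) → ℝ) (hu : ∀ x, 0 ≤ u x) (hx : ∃ x, 0 < u x) :
    ent (n + 1) (nop (n + 1) e u) ≤
      (1 - 2 * e) ^ 2 / (2 * (1 - (1 - 2 * e) ^ 2) ^ 2) * Rf (n + 1) e u -
        (1 - 2 * e) ^ 2 / (2 * (1 - (1 - 2 * e) ^ 2) ^ 2) *
          ((((1 - (1 - 2 * e) ^ 2) * ((avg n (fun x => u (Fin.cons true x)) -
              avg n (fun x => u (Fin.cons false x))) / 2)) ^ 2 /
            ((avg n (fun x => u (Fin.cons true x)) + avg n (fun x => u (Fin.cons false x))) / 2 +
              (1 - 2 * e) * ((avg n (fun x => u (Fin.cons true x)) -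
                avg n (fun x => u (Fin.cons false x))) / 2)) +
          ((1 - (1 - 2 * e) ^ 2) * ((avg n (fun x => u (Fin.cons true x)) -
              avg n (fun x => u (Fin.cons false x))) / 2)) ^ 2 /
            ((avg n (fun x => u (Fin.cons true x)) + avg n (fun x => u (Fin.cons false x))) / 2 -
              (1 - 2 * e) * ((avg n (fun x => u (Fin.cons true x)) -
                avg n (fun x => u (Fin.cons false x))) / 2))) / 2) +
        psi (1 - 2 * e) * (((avg n (fun x => u (Fin.cons true x)) -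
            avg n (fun x => u (Fin.cons false x))) / 2) ^ 2 /
          ((avg n (fun x => u (Fin.cons true x)) + avg n (fun x => u (Fin.cons false x))) / 2)) := by
  have hwt : ∀ x : Fin n → Bool,
      0 ≤ (1 - e) * u (Fin.cons true x) + e * u (Fin.cons false x) :=
    fun x => add_nonneg (mul_nonneg (by linarith) (hu _)) (mul_nonneg h0.le (hu _))
  have hwf : ∀ x : Fin n → Bool,
      0 ≤ e * u (Fin.cons true x) + (1 - e) * u (Fin.cons false x) :=
    fun x => add_nonneg (mul_nonneg h0.le (hu _)) (mul_nonneg (by linarith) (hu _))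
  have hA : 0 ≤ avg n (fun x => u (Fin.cons true x)) := avg_nonneg n _ (fun x => hu _)
  have hB : 0 ≤ avg n (fun x => u (Fin.cons false x)) := avg_nonneg n _ (fun x => hu _)
  obtain ⟨sT, sF⟩ := sed_bounds n e h0 h1 u hu hx
  have iT := ent_nop_le_Rf e h0 h1 n _ hwt
  have iF := ent_nop_le_Rf e h0 h1 n _ hwf
  have hg := gap_le hA hB (show (0 : ℝ) ≤ 1 - 2 * e by linarith) (show 1 - 2 * e ≤ 1 by linarith)
  have hK : 0 ≤ (1 - 2 * e) ^ 2 / (2 * (1 - (1 - 2 * e) ^ 2) ^ 2) := by positivity
  have m1 := mul_le_mul_of_nonneg_left sT hK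
  have m2 := mul_le_mul_of_nonneg_left sF hK
  rw [ent_nop_succ, Rf_succ]
  obtain ⟨K, hKdef⟩ : ∃ K : ℝ, K = (1 - 2 * e) ^ 2 / (2 * (1 - (1 - 2 * e) ^ 2) ^ 2) := ⟨_, rfl⟩
  rw [← hKdef] at m1 m2 iT iF ⊢
  obtain ⟨HT, hHT⟩ : ∃ HT : ℝ, HT = avg n (fun y => ((1 - (1 - 2 * e) ^ 2) *
      nop n e (fun x => (u (Fin.cons true x) - u (Fin.cons false x)) / 2) y) ^ 2 /
      nop n e (fun x => (1 - e) * u (Fin.cons true x) + e * u (Fin.cons false x)) y) := ⟨_, rfl⟩
  obtain ⟨HF, hHF⟩ : ∃ HF : ℝ, HF = avg n (fun y => ((1 - (1 - 2 * e) ^ 2) *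
      nop n e (fun x => (u (Fin.cons true x) - u (Fin.cons false x)) / 2) y) ^ 2 /
      nop n e (fun x => e * u (Fin.cons true x) + (1 - e) * u (Fin.cons false x)) y) := ⟨_, rfl⟩
  rw [← hHT] at m1 ⊢
  rw [← hHF] at m2 ⊢
  have expand : K * ((HT + Rf n e (fun x => (1 - e) * u (Fin.cons true x) + e * u (Fin.cons false x)) +
      (HF + Rf n e (fun x => e * u (Fin.cons true x) + (1 - e) * u (Fin.cons false x)))) / 2) =
      (K * HT + K * Rf n e (fun x => (1 - e) * u (Fin.cons true x) + e * u (Fin.cons false x)) +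
      (K * HF + K * Rf n e (fun x => e * u (Fin.cons true x) + (1 - e) * u (Fin.cons false x)))) / 2 := by
    ring
  rw [expand]
  linarith

lemma ent_const (n : ℕ) (c : ℝ) : ent n (fun _ => c) = 0 := by
  unfold ent
  rw [avg_const, avg_const]
  ring

lemma nop_const (n : ℕ) (e c : ℝ) : nop n e (fun _ => c) = fun _ => c := by
  funext y
  unfold nop
  rw [← Finset.sum_mul, sum_bsc_left, one_mul]

end Vale.Agent.Lib.P322
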