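import Mathlib
import Vale.Agent.Lib.P322.First

namespace Vale.Agent.Lib.P322

open Finset

lemma four_recip {m t : ℝ} (p1 : 0 < m + t) (p2 : 0 < m - t) (p3 : 0 < 1 - m - t)
    (p4 : 0 < 1 - m + t) :
    2 / (m * (1 - m) - t ^ 2) ≤
      (1 / (m + t) + 1 / (m - t)) + (1 / (1 - m - t) + 1 / (1 - m + t)) := by
  have a1 : 1 / (m + t) + 1 / (1 - m - t) = 1 / ((m + t) * (1 - m - t)) := by
    field_simp
    ring
  have a2 : 1 / (m - t) + 1 / (1 - m + t) = 1 / ((m - t) * (1 - m + t)) := by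
    field_simp
    ring
  have hP : 0 < (m + t) * (1 - m - t) := mul_pos p1 p3
  have hQ : 0 < (m - t) * (1 - m + t) := mul_pos p2 p4
  have hPQ : (m + t) * (1 - m - t) + (m - t) * (1 - m + t) = 2 * (m * (1 - m) - t ^ 2) := by ring
  have e : (1 / (m + t) + 1 / (m - t)) + (1 / (1 - m - t) + 1 / (1 - m + t)) =
      (1 / (m + t) + 1 / (1 - m - t)) + (1 / (m - t) + 1 / (1 - m + t)) := by ring
  rw [e, a1, a2]
  obtain ⟨P, hPdef⟩ : ∃ P : ℝ, P = (m + t) * (1 - m - t) := ⟨_, rfl⟩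
  obtain ⟨Q, hQdef⟩ : ∃ Q : ℝ, Q = (m - t) * (1 - m + t) := ⟨_, rfl⟩
  rw [← hPdef] at hP hPQ ⊢
  rw [← hQdef] at hQ hPQ ⊢
  have hS : m * (1 - m) - t ^ 2 = (P + Q) / 2 := by linarith
  rw [hS, div_add_div _ _ hP.ne' hQ.ne', div_le_div_iff₀ (by positivity) (mul_pos hP hQ)]
  nlinarith [sq_nonneg (P - Q)]

lemma head_scale {r δ : ℝ} (hq : 1 - r ^ 2 ≠ 0) :
    r ^ 2 / (2 * (1 - r ^ 2) ^ 2) * ((1 - r ^ 2) * δ) ^ 2 = (r * δ) ^ 2 / 2 := by
  field_simp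

lemma alpha_form {r m δ : ℝ} (hm0 : 0 < m) (h1m : 0 < 1 - m)
    (hDt : 0 < m * (1 - m) - (r * δ) ^ 2) :
    (r * δ) ^ 2 / 4 * (2 / (m * (1 - m) - (r * δ) ^ 2)) =
      r ^ 2 / 2 * (δ ^ 2 / (m * (1 - m)) / (1 - r ^ 2 * (δ ^ 2 / (m * (1 - m))))) := by
  have hmne : m ≠ 0 := hm0.ne'
  have h1mne : 1 - m ≠ 0 := h1m.ne'
  have hDne : m * (1 - m) - (r * δ) ^ 2 ≠ 0 := hDt.ne'
  have h6 : 1 - r ^ 2 * (δ ^ 2 / (m * (1 - m))) = (m * (1 - m) - (r * δ) ^ 2) / (m * (1 - m)) := by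
    rw [eq_div_iff (mul_ne_zero hmne h1mne)]
    field_simp
  rw [h6, div_div_eq_mul_div, div_mul_cancel₀ _ (mul_ne_zero hmne h1mne)]
  rw [div_mul_div_comm, div_mul_div_comm, div_eq_div_iff (mul_ne_zero (by norm_num) hDne)
    (mul_ne_zero (by norm_num) hDne)]
  ring

lemma master_real {r m δ ψ W R1 R2 E1 E2 : ℝ} (hr0 : 0 ≤ r) (hr1 : r < 1) (hm0 : 0 < m)
    (hm1 : m < 1) (hd1 : |δ| ≤ m) (hd2 : |δ| ≤ 1 - m)
    (hE1 : E1 ≤ r ^ 2 / (2 * (1 - r ^ 2) ^ 2) * R1 -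
      r ^ 2 / (2 * (1 - r ^ 2) ^ 2) *
        ((((1 - r ^ 2) * δ) ^ 2 / (m + r * δ) + ((1 - r ^ 2) * δ) ^ 2 / (m - r * δ)) / 2) +
      ψ * (δ ^ 2 / m))
    (hE2 : E2 ≤ r ^ 2 / (2 * (1 - r ^ 2) ^ 2) * R2 -
      r ^ 2 / (2 * (1 - r ^ 2) ^ 2) *
        ((((1 - r ^ 2) * δ) ^ 2 / (1 - m - r * δ) + ((1 - r ^ 2) * δ) ^ 2 / (1 - m + r * δ)) / 2) +
      ψ * (δ ^ 2 / (1 - m)))
    (hR : R1 + R2 ≤ (1 - r ^ 2) * (1 - 4 * ((1 - r ^ 2) ^ 2 * W))) :
    E1 + E2 ≤ δ ^ 2 / (m * (1 - m)) * ψ +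
      r ^ 2 / 2 * ((1 - (1 - r ^ 2) ^ 2 * (4 * W)) / (1 - r ^ 2) -
        δ ^ 2 / (m * (1 - m)) / (1 - r ^ 2 * (δ ^ 2 / (m * (1 - m))))) := by
  have hq : 0 < 1 - r ^ 2 := by nlinarith
  have h1m : 0 < 1 - m := by linarith
  have hrd : |r * δ| ≤ r * |δ| := by rw [abs_mul, abs_of_nonneg hr0]
  have ht1 : |r * δ| < m := by
    calc |r * δ| ≤ r * |δ| := hrd
      _ ≤ r * m := mul_le_mul_of_nonneg_left hd1 hr0
      _ < 1 * m := mul_lt_mul_of_pos_right hr1 hm0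
      _ = m := one_mul m
  have ht2 : |r * δ| < 1 - m := by
    calc |r * δ| ≤ r * |δ| := hrd
      _ ≤ r * (1 - m) := mul_le_mul_of_nonneg_left hd2 hr0
      _ < 1 * (1 - m) := mul_lt_mul_of_pos_right hr1 h1m
      _ = 1 - m := one_mul _
  have ht1' := abs_lt.mp ht1
  have ht2' := abs_lt.mp ht2
  have p1 : 0 < m + r * δ := by linarith
  have p2 : 0 < m - r * δ := by linarith
  have p3 : 0 < 1 - m - r * δ := by linarith
  have p4 : 0 < 1 - m + r * δ := by linarith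
  have hD : 0 < m * (1 - m) := mul_pos hm0 h1m
  have hdsq : δ ^ 2 ≤ m * (1 - m) := by
    have h1 : |δ| * |δ| ≤ m * (1 - m) := mul_le_mul hd1 hd2 (abs_nonneg _) hm0.le
    have h2 : |δ| * |δ| = δ ^ 2 := by rw [← sq, sq_abs]
    linarith
  have hDt : 0 < m * (1 - m) - (r * δ) ^ 2 := by
    have h4 : r ^ 2 * δ ^ 2 ≤ r ^ 2 * (m * (1 - m)) := mul_le_mul_of_nonneg_left hdsq (sq_nonneg r)
    nlinarith
  have hs := head_scale (r := r) (δ := δ) hq.ne'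
  have s1 : r ^ 2 / (2 * (1 - r ^ 2) ^ 2) *
      ((((1 - r ^ 2) * δ) ^ 2 / (m + r * δ) + ((1 - r ^ 2) * δ) ^ 2 / (m - r * δ)) / 2) =
      (r * δ) ^ 2 / 4 * (1 / (m + r * δ) + 1 / (m - r * δ)) := by
    rw [show r ^ 2 / (2 * (1 - r ^ 2) ^ 2) *
      ((((1 - r ^ 2) * δ) ^ 2 / (m + r * δ) + ((1 - r ^ 2) * δ) ^ 2 / (m - r * δ)) / 2) =
      (r ^ 2 / (2 * (1 - r ^ 2) ^ 2) * ((1 - r ^ 2) * δ) ^ 2) *
        (1 / (m + r * δ) + 1 / (m - r * δ)) / 2 by ring, hs]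
    ring
  have s2 : r ^ 2 / (2 * (1 - r ^ 2) ^ 2) *
      ((((1 - r ^ 2) * δ) ^ 2 / (1 - m - r * δ) + ((1 - r ^ 2) * δ) ^ 2 / (1 - m + r * δ)) / 2) =
      (r * δ) ^ 2 / 4 * (1 / (1 - m - r * δ) + 1 / (1 - m + r * δ)) := by
    rw [show r ^ 2 / (2 * (1 - r ^ 2) ^ 2) *
      ((((1 - r ^ 2) * δ) ^ 2 / (1 - m - r * δ) + ((1 - r ^ 2) * δ) ^ 2 / (1 - m + r * δ)) / 2) =
      (r ^ 2 / (2 * (1 - r ^ 2) ^ 2) * ((1 - r ^ 2) * δ) ^ 2) *
        (1 / (1 - m - r * δ) + 1 / (1 - m + r * δ)) / 2 by ring, hs]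
    ring
  have four := mul_le_mul_of_nonneg_left (four_recip p1 p2 p3 p4)
    (show (0 : ℝ) ≤ (r * δ) ^ 2 / 4 by positivity)
  rw [alpha_form hm0 h1m hDt, mul_add] at four
  have e6 : ψ * (δ ^ 2 / m) + ψ * (δ ^ 2 / (1 - m)) = δ ^ 2 / (m * (1 - m)) * ψ := by
    field_simp
    ring
  have hK : 0 ≤ r ^ 2 / (2 * (1 - r ^ 2) ^ 2) := by positivity
  have hKR := mul_le_mul_of_nonneg_left hR hK
  have e7 : r ^ 2 / (2 * (1 - r ^ 2) ^ 2) * ((1 - r ^ 2) * (1 - 4 * ((1 - r ^ 2) ^ 2 * W))) =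
      r ^ 2 / 2 * ((1 - (1 - r ^ 2) ^ 2 * (4 * W)) / (1 - r ^ 2)) := by
    field_simp
  rw [s1] at hE1
  rw [s2] at hE2
  rw [e7, mul_add] at hKR
  have e8 : r ^ 2 / 2 * ((1 - (1 - r ^ 2) ^ 2 * (4 * W)) / (1 - r ^ 2) -
      δ ^ 2 / (m * (1 - m)) / (1 - r ^ 2 * (δ ^ 2 / (m * (1 - m))))) =
      r ^ 2 / 2 * ((1 - (1 - r ^ 2) ^ 2 * (4 * W)) / (1 - r ^ 2)) -
      r ^ 2 / 2 * (δ ^ 2 / (m * (1 - m)) / (1 - r ^ 2 * (δ ^ 2 / (m * (1 - m))))) := by ring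
  rw [e8]
  linarith

lemma alpha_eq (n : ℕ) (f : (Fin (n + 1) → Bool) → Bool) :
    fcoef (n + 1) f 0 ^ 2 / (1 - fmean (n + 1) f ^ 2) =
      ((avg n (fun x => ind f (Fin.cons true x)) - avg n (fun x => ind f (Fin.cons false x))) / 2) ^ 2 /
        ((avg n (fun x => ind f (Fin.cons true x)) + avg n (fun x => ind f (Fin.cons false x))) / 2 *
          (1 - (avg n (fun x => ind f (Fin.cons true x)) +
            avg n (fun x => ind f (Fin.cons false x))) / 2)) := by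
  rw [fcoef_eq, lev_zero_succ, avg_half_sub, fmean_eq, avg_succ]
  obtain ⟨A, hA⟩ : ∃ A : ℝ, A = avg n (fun x => ind f (Fin.cons true x)) := ⟨_, rfl⟩
  obtain ⟨B, hB⟩ : ∃ B : ℝ, B = avg n (fun x => ind f (Fin.cons false x)) := ⟨_, rfl⟩
  rw [← hA, ← hB]
  have e1 : (2 * ((A - B) / 2)) ^ 2 = 4 * ((A - B) / 2) ^ 2 := by ring
  have e2 : 1 - (2 * ((A + B) / 2) - 1) ^ 2 = 4 * ((A + B) / 2 * (1 - (A + B) / 2)) := by ring
  rw [e1, e2, mul_div_mul_left _ _ (by norm_num : (4 : ℝ) ≠ 0)]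

lemma highWeight_le_one (n : ℕ) (f : (Fin n → Bool) → Bool) : highWeight n f ≤ 1 := by
  unfold highWeight
  have h1 : 0 ≤ fmean n f ^ 2 := sq_nonneg _
  have h2 : 0 ≤ ∑ j, fcoef n f j ^ 2 := Finset.sum_nonneg (fun j _ => sq_nonneg _)
  linarith

/-- Master inequality with the first coordinate distinguished, in nats. -/
theorem mutualInfo_master0 (n : ℕ) (e : ℝ) (h0 : 0 < e) (h1 : e ≤ 1 / 2)
    (f : (Fin (n + 1) → Bool) → Bool) :
    mutualInfo (joint (n + 1) e f) * Real.log 2 ≤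
      fcoef (n + 1) f 0 ^ 2 / (1 - fmean (n + 1) f ^ 2) * psi (1 - 2 * e) +
        (1 - 2 * e) ^ 2 / 2 *
          ((1 - (1 - (1 - 2 * e) ^ 2) ^ 2 * highWeight (n + 1) f) / (1 - (1 - 2 * e) ^ 2) -
            fcoef (n + 1) f 0 ^ 2 / (1 - fmean (n + 1) f ^ 2) /
              (1 - (1 - 2 * e) ^ 2 * (fcoef (n + 1) f 0 ^ 2 / (1 - fmean (n + 1) f ^ 2)))) := by
  have he1 : e < 1 := by linarith
  have hq : 0 < 1 - (1 - 2 * e) ^ 2 := by nlinarith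
  have hq1 : 1 - (1 - 2 * e) ^ 2 ≤ 1 := by nlinarith [sq_nonneg (1 - 2 * e)]
  rw [mutualInfo_joint (n + 1) e h0.le he1.le f]
  by_cases hc : ∃ c : ℝ, ind f = fun _ => c
  · obtain ⟨c, hc⟩ := hc
    have hl : ent (n + 1) (nop (n + 1) e (ind f)) = 0 := by
      rw [hc, nop_const, ent_const]
    have hl' : ent (n + 1) (nop (n + 1) e (fun x => 1 - ind f x)) = 0 := by
      rw [hc, nop_const, ent_const]
    have hco : fcoef (n + 1) f 0 = 0 := by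
      rw [fcoef_eq, hc, lev_const, mul_zero]
    rw [hl, hl', hco]
    have hW := highWeight_le_one (n + 1) f
    have hnum : 0 ≤ 1 - (1 - (1 - 2 * e) ^ 2) ^ 2 * highWeight (n + 1) f := by
      have hq2 : (1 - (1 - 2 * e) ^ 2) ^ 2 ≤ 1 := by nlinarith
      have hWn := highWeight_nonneg (n + 1) f
      nlinarith
    have hpos : 0 ≤ (1 - 2 * e) ^ 2 / 2 *
        ((1 - (1 - (1 - 2 * e) ^ 2) ^ 2 * highWeight (n + 1) f) / (1 - (1 - 2 * e) ^ 2)) :=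
      mul_nonneg (by positivity) (div_nonneg hnum hq.le)
    simp
    linarith
  · have hx1 : ∃ x, 0 < ind f x := by
      by_contra hne
      apply hc
      refine ⟨0, funext (fun x => ?_)⟩
      have h3 : ¬ 0 < ind f x := fun h => hne ⟨x, h⟩
      have := ind_nonneg f x
      linarith
    have hx2 : ∃ x, 0 < 1 - ind f x := by
      by_contra hne
      apply hc
      refine ⟨1, funext (fun x => ?_)⟩
      have h3 : ¬ 0 < 1 - ind f x := fun h => hne ⟨x, h⟩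
      have := ind_le_one f x
      linarith
    have hA0 : 0 ≤ avg n (fun x => ind f (Fin.cons true x)) :=
      avg_nonneg n _ (fun x => ind_nonneg f _)
    have hB0 : 0 ≤ avg n (fun x => ind f (Fin.cons false x)) :=
      avg_nonneg n _ (fun x => ind_nonneg f _)
    have hA1 : avg n (fun x => ind f (Fin.cons true x)) ≤ 1 := by
      have := avg_mono n (fun x => ind f (Fin.cons true x)) (fun _ => 1) (fun x => ind_le_one f _)
      rwa [avg_const] at this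
    have hB1 : avg n (fun x => ind f (Fin.cons false x)) ≤ 1 := by
      have := avg_mono n (fun x => ind f (Fin.cons false x)) (fun _ => 1) (fun x => ind_le_one f _)
      rwa [avg_const] at this
    have hm0 : 0 < (avg n (fun x => ind f (Fin.cons true x)) +
        avg n (fun x => ind f (Fin.cons false x))) / 2 := by
      rw [← avg_succ n (ind f)]
      obtain ⟨x0, hx0⟩ := hx1
      unfold avg
      refine mul_pos (by positivity) ?_
      exact Finset.sum_pos' (fun x _ => ind_nonneg f x) ⟨x0, Finset.mem_univ _, hx0⟩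
    have hm1 : (avg n (fun x => ind f (Fin.cons true x)) +
        avg n (fun x => ind f (Fin.cons false x))) / 2 < 1 := by
      have hpos : 0 < avg (n + 1) (fun x => 1 - ind f x) := by
        obtain ⟨x0, hx0⟩ := hx2
        unfold avg
        refine mul_pos (by positivity) ?_
        exact Finset.sum_pos' (fun x _ => by have := ind_le_one f x; linarith)
          ⟨x0, Finset.mem_univ _, hx0⟩
      rw [avg_one_sub, avg_succ] at hpos
      linarith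
    have g1 := ent_nop_first n e h0 h1 (ind f) (fun x => ind_nonneg f x) hx1
    have g2 := ent_nop_first n e h0 h1 (fun x => 1 - ind f x)
      (fun x => by have := ind_le_one f x; linarith) hx2
    rw [avg_one_sub n (fun x => ind f (Fin.cons true x)),
      avg_one_sub n (fun x => ind f (Fin.cons false x))] at g2
    have hR := Rf_add_le (n + 1) e h0 he1 f
    rw [alpha_eq, highWeight_eq]
    obtain ⟨A, hA⟩ : ∃ A : ℝ, A = avg n (fun x => ind f (Fin.cons true x)) := ⟨_, rfl⟩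
    obtain ⟨B, hB⟩ : ∃ B : ℝ, B = avg n (fun x => ind f (Fin.cons false x)) := ⟨_, rfl⟩
    rw [← hA] at g1 g2 hm0 hm1 hA0 hA1 ⊢
    rw [← hB] at g1 g2 hm0 hm1 hB0 hB1 ⊢
    have g2' : ent (n + 1) (nop (n + 1) e (fun x => 1 - ind f x)) ≤
        (1 - 2 * e) ^ 2 / (2 * (1 - (1 - 2 * e) ^ 2) ^ 2) * Rf (n + 1) e (fun x => 1 - ind f x) -
        (1 - 2 * e) ^ 2 / (2 * (1 - (1 - 2 * e) ^ 2) ^ 2) *
          ((((1 - (1 - 2 * e) ^ 2) * ((A - B) / 2)) ^ 2 /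
              (1 - (A + B) / 2 - (1 - 2 * e) * ((A - B) / 2)) +
            ((1 - (1 - 2 * e) ^ 2) * ((A - B) / 2)) ^ 2 /
              (1 - (A + B) / 2 + (1 - 2 * e) * ((A - B) / 2))) / 2) +
        psi (1 - 2 * e) * (((A - B) / 2) ^ 2 / (1 - (A + B) / 2)) := by
      refine le_trans g2 (le_of_eq ?_)
      ring
    exact master_real (r := 1 - 2 * e) (m := (A + B) / 2) (δ := (A - B) / 2)
      (by linarith) (by linarith) hm0 hm1
      (by rw [abs_le]; constructor <;> linarith) (by rw [abs_le]; constructor <;> linarith)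
      g1 g2' hR

end Vale.Agent.Lib.P322
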