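import Mathlib
import Vale.Agent.Lib.P322.Master

namespace Vale.Agent.Lib.P322

open Finset

/-- Relabelling the coordinates of the cube by a permutation. -/
def permCube {n : ℕ} (s : Equiv.Perm (Fin n)) : (Fin n → Bool) ≃ (Fin n → Bool) where
  toFun x := x ∘ s
  invFun x := x ∘ s.symm
  left_inv x := by funext i; simp
  right_inv x := by funext i; simp

lemma bsc_perm (n : ℕ) (e : ℝ) (s : Equiv.Perm (Fin n)) (x y : Fin n → Bool) :
    bsc n e (x ∘ s) (y ∘ s) = bsc n e x y := by
  unfold bsc
  exact Equiv.prod_comp s (fun i => if x i = y i then 1 - e else e)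

lemma joint_perm (n : ℕ) (e : ℝ) (s : Equiv.Perm (Fin n)) (f : (Fin n → Bool) → Bool)
    (b : Bool) (y : Fin n → Bool) :
    joint n e (fun x => f (x ∘ s)) b y = joint n e f b (y ∘ s) := by
  unfold joint
  rw [← Equiv.sum_comp (permCube s.symm)
    (fun x => if f (x ∘ s) = b then (1 / 2 : ℝ) ^ n * bsc n e x y else 0)]
  refine Finset.sum_congr rfl (fun z _ => ?_)
  have h1 : (permCube s.symm z) ∘ s = z := by
    funext i; simp [permCube]
  have h2 : bsc n e (permCube s.symm z) y = bsc n e z (y ∘ s) := by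
    have h := bsc_perm n e s (permCube s.symm z) y
    rw [h1] at h
    exact h.symm
  rw [h1, h2]

lemma mutualInfo_perm {α β : Type} [Fintype α] [Fintype β] (P : α → β → ℝ) (t : β ≃ β) :
    mutualInfo (fun a b => P a (t b)) = mutualInfo P := by
  unfold mutualInfo
  refine Finset.sum_congr rfl (fun a _ => ?_)
  rw [← Equiv.sum_comp t
    (fun b => P a b * Real.logb 2 (P a b / ((∑ b', P a b') * (∑ a', P a' b))))]
  refine Finset.sum_congr rfl (fun b _ => ?_)
  rw [Equiv.sum_comp t (fun b' => P a b')]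

lemma mutualInfo_joint_perm (n : ℕ) (e : ℝ) (s : Equiv.Perm (Fin n))
    (f : (Fin n → Bool) → Bool) :
    mutualInfo (joint n e (fun x => f (x ∘ s))) = mutualInfo (joint n e f) := by
  have h : joint n e (fun x => f (x ∘ s)) = fun b y => joint n e f b (permCube s y) := by
    funext b y
    exact joint_perm n e s f b y
  rw [h]
  exact mutualInfo_perm (joint n e f) (permCube s)

lemma fmean_perm (n : ℕ) (s : Equiv.Perm (Fin n)) (f : (Fin n → Bool) → Bool) :
    fmean n (fun x => f (x ∘ s)) = fmean n f := by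
  unfold fmean
  congr 1
  exact Equiv.sum_comp (permCube s) (fun x => sgn (f x))

lemma fcoef_perm (n : ℕ) (s : Equiv.Perm (Fin n)) (f : (Fin n → Bool) → Bool) (j : Fin n) :
    fcoef n (fun x => f (x ∘ s)) (s j) = fcoef n f j := by
  unfold fcoef
  congr 1
  rw [← Equiv.sum_comp (permCube s) (fun x => sgn (f x) * sgn (x j))]
  refine Finset.sum_congr rfl (fun z _ => ?_)
  simp [permCube]

lemma highWeight_perm (n : ℕ) (s : Equiv.Perm (Fin n)) (f : (Fin n → Bool) → Bool) :
    highWeight n (fun x => f (x ∘ s)) = highWeight n f := by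
  unfold highWeight
  rw [fmean_perm]
  congr 1
  rw [← Equiv.sum_comp s (fun j => fcoef n (fun x => f (x ∘ s)) j ^ 2)]
  refine Finset.sum_congr rfl (fun j _ => ?_)
  rw [fcoef_perm]

/-- Any coordinate can be moved to the front without changing the quantities involved. -/
lemma exists_front (n : ℕ) (e : ℝ) (f : (Fin (n + 1) → Bool) → Bool) (i : Fin (n + 1)) :
    ∃ g : (Fin (n + 1) → Bool) → Bool,
      mutualInfo (joint (n + 1) e g) = mutualInfo (joint (n + 1) e f) ∧
      fmean (n + 1) g = fmean (n + 1) f ∧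
      highWeight (n + 1) g = highWeight (n + 1) f ∧
      fcoef (n + 1) g 0 = fcoef (n + 1) f i := by
  refine ⟨fun x => f (x ∘ Equiv.swap 0 i), mutualInfo_joint_perm (n + 1) e _ f,
    fmean_perm (n + 1) _ f, highWeight_perm (n + 1) _ f, ?_⟩
  have h := fcoef_perm (n + 1) (Equiv.swap 0 i) f i
  rw [Equiv.swap_apply_right] at h
  exact h

/-- Master inequality in bits, for an arbitrary distinguished coordinate. -/
theorem mutualInfo_master (n : ℕ) (e : ℝ) (h0 : 0 < e) (h1 : e ≤ 1 / 2)
    (f : (Fin n → Bool) → Bool) (i : Fin n) :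
    mutualInfo (joint n e f) * Real.log 2 ≤
      coordShare n f i * (Real.log 2 - Real.binEntropy e) +
        (1 - 2 * e) ^ 2 / 2 *
          ((1 - (1 - (1 - 2 * e) ^ 2) ^ 2 * highWeight n f) / (1 - (1 - 2 * e) ^ 2) -
            coordShare n f i / (1 - (1 - 2 * e) ^ 2 * coordShare n f i)) := by
  cases n with
  | zero => exact i.elim0
  | succ n =>
    obtain ⟨g, hg1, hg2, hg3, hg4⟩ := exists_front n e f i
    have h := mutualInfo_master0 n e h0 h1 g
    rw [hg1, hg2, hg3, hg4, psi_eq h0.le (by linarith)] at h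
    unfold coordShare
    exact h

lemma coordShare_nonneg (n : ℕ) (f : (Fin n → Bool) → Bool) (i : Fin n) :
    0 ≤ coordShare n f i := by
  unfold coordShare
  have hW := highWeight_nonneg n f
  unfold highWeight at hW
  have hs : 0 ≤ ∑ j, fcoef n f j ^ 2 := Finset.sum_nonneg (fun j _ => sq_nonneg _)
  exact div_nonneg (sq_nonneg _) (by linarith)

lemma coordShare_le_one (n : ℕ) (f : (Fin n → Bool) → Bool) (i : Fin n) :
    coordShare n f i ≤ 1 := by
  unfold coordShare
  have hW := highWeight_nonneg n f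
  unfold highWeight at hW
  have hs : fcoef n f i ^ 2 ≤ ∑ j, fcoef n f j ^ 2 :=
    Finset.single_le_sum (f := fun j => fcoef n f j ^ 2) (fun j _ => sq_nonneg _)
      (Finset.mem_univ i)
  rcases eq_or_lt_of_le (show 0 ≤ 1 - fmean n f ^ 2 by linarith [sq_nonneg (fcoef n f i)]) with h | h
  · rw [← h, div_zero]
    norm_num
  · rw [div_le_one h]
    linarith

end Vale.Agent.Lib.P322
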