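import Mathlib
import Vale.Agent.Lib.P322.Perm

namespace Vale.Agent.Lib.P322

open Finset

/-- Master inequality in bits, for an arbitrary distinguished coordinate. -/
theorem coord_bound (n : ℕ) (e : ℝ) (h0 : 0 < e) (h1 : e ≤ 1 / 2)
    (f : (Fin n → Bool) → Bool) (i : Fin n) :
    mutualInfo (joint n e f) ≤
      coordShare n f i * (1 - h2 e) +
        (1 - 2 * e) ^ 2 / (2 * Real.log 2) *
          ((1 - (1 - (1 - 2 * e) ^ 2) ^ 2 * highWeight n f) / (1 - (1 - 2 * e) ^ 2) -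
            coordShare n f i / (1 - (1 - 2 * e) ^ 2 * coordShare n f i)) := by
  have h := mutualInfo_master n e h0 h1 f i
  have hl : 0 < Real.log 2 := Real.log_pos (by norm_num)
  rw [← le_div_iff₀ hl] at h
  refine le_trans h (le_of_eq ?_)
  unfold h2
  field_simp

/-- The Courtade-Kumar inequality under a Fourier-weight condition relative to one coordinate. -/
theorem ck_of_coord (n : ℕ) (e : ℝ) (h0 : 0 < e) (h1 : e ≤ 1 / 2)
    (f : (Fin n → Bool) → Bool) (i : Fin n)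
    (hW : (1 - 2 * e) ^ 2 * (1 - coordShare n f i) *
        (1 + (1 - (1 - 2 * e) ^ 2) * coordShare n f i) ≤
      (1 - (1 - 2 * e) ^ 2) ^ 2 * (1 - (1 - 2 * e) ^ 2 * coordShare n f i) * highWeight n f) :
    mutualInfo (joint n e f) ≤ 1 - h2 e := by
  have h := mutualInfo_master n e h0 h1 f i
  have hl : 0 < Real.log 2 := Real.log_pos (by norm_num)
  have ha0 := coordShare_nonneg n f i
  have ha1 := coordShare_le_one n f i
  obtain ⟨a, ha⟩ : ∃ a : ℝ, a = coordShare n f i := ⟨_, rfl⟩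
  obtain ⟨W, hWd⟩ : ∃ W : ℝ, W = highWeight n f := ⟨_, rfl⟩
  obtain ⟨r, hr⟩ : ∃ r : ℝ, r = 1 - 2 * e := ⟨_, rfl⟩
  rw [← ha, ← hWd, ← hr] at h hW
  rw [← ha] at ha0 ha1
  have hr0 : 0 ≤ r := by rw [hr]; linarith
  have hr1 : r < 1 := by rw [hr]; linarith
  have hq : 0 < 1 - r ^ 2 := by nlinarith
  have hd : 0 < 1 - r ^ 2 * a := by nlinarith
  have hp := psi_ge (t := 1 - 2 * e) (by rw [abs_le]; constructor <;> linarith)
  rw [psi_eq h0.le (by linarith), ← hr] at hp
  have key : (1 - (1 - r ^ 2) ^ 2 * W) / (1 - r ^ 2) - a / (1 - r ^ 2 * a) ≤ 1 - a := by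
    rw [div_sub_div _ _ hq.ne' hd.ne', div_le_iff₀ (mul_pos hq hd)]
    nlinarith [hW]
  have h3 : r ^ 2 / 2 * ((1 - (1 - r ^ 2) ^ 2 * W) / (1 - r ^ 2) - a / (1 - r ^ 2 * a)) ≤
      r ^ 2 / 2 * (1 - a) := mul_le_mul_of_nonneg_left key (by positivity)
  have h4 : r ^ 2 / 2 * (1 - a) ≤ (Real.log 2 - Real.binEntropy e) * (1 - a) :=
    mul_le_mul_of_nonneg_right hp (by linarith)
  have hfin : mutualInfo (joint n e f) * Real.log 2 ≤ Real.log 2 - Real.binEntropy e := by
    nlinarith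
  unfold h2
  rw [← sub_nonneg] at hfin ⊢
  have e2 : 1 - Real.binEntropy e / Real.log 2 - mutualInfo (joint n e f) =
      (Real.log 2 - Real.binEntropy e - mutualInfo (joint n e f) * Real.log 2) / Real.log 2 := by
    field_simp
  rw [e2]
  exact div_nonneg hfin hl.le

end Vale.Agent.Lib.P322
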