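import Mathlib

namespace Vale.Agent.Lib.P322

/-- The probability that `f X = true` for `X` uniform on the cube. -/
noncomputable def prob (n : ℕ) (f : (Fin n → Bool) → Bool) : ℝ :=
  ((Finset.univ.filter fun x => f x = true).card : ℝ) / 2 ^ n

/-- Normalized quadratic variation of the Doob martingale `M_i = P(f X = true | X_0, .., X_(i-1))`,
that is the sum over `i` of the mean of `(M_(i+1) - M_i)^2 / (M_i (1 - M_i))`, written by
recursion on the first coordinate. -/
noncomputable def doobQV : (n : ℕ) → ((Fin n → Bool) → Bool) → ℝ
  | 0, _ => 0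
  | n + 1, f =>
      ((prob n (fun x => f (Fin.cons true x)) - prob n (fun x => f (Fin.cons false x))) / 2) ^ 2 /
          (prob (n + 1) f * (1 - prob (n + 1) f)) +
        (doobQV n (fun x => f (Fin.cons true x)) + doobQV n (fun x => f (Fin.cons false x))) / 2

end Vale.Agent.Lib.P322
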