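import Mathlib
import Vale.Agent.Lib.P322.Cube

namespace Vale.Agent.Lib.P322

open Finset

/-- The linear form `sum_j a_j x_j` on the cube, bits read as signs. -/
noncomputable def lin (n : ℕ) (a : Fin n → ℝ) (x : Fin n → Bool) : ℝ := ∑ j, a j * sgn (x j)

/-- Sum of squares of a coefficient vector. -/
noncomputable def nsq (n : ℕ) (a : Fin n → ℝ) : ℝ := ∑ j, a j ^ 2

lemma lin_cons (n : ℕ) (a : Fin (n + 1) → ℝ) (s : Bool) (x : Fin n → Bool) :
    lin (n + 1) a (Fin.cons s x) = a 0 * sgn s + lin n (Fin.tail a) x := by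
  unfold lin
  rw [Fin.sum_univ_succ]
  simp [Fin.tail]

lemma nsq_succ (n : ℕ) (a : Fin (n + 1) → ℝ) :
    nsq (n + 1) a = a 0 ^ 2 + nsq n (Fin.tail a) := by
  unfold nsq
  rw [Fin.sum_univ_succ]
  simp [Fin.tail]

lemma nsq_nonneg (n : ℕ) (a : Fin n → ℝ) : 0 ≤ nsq n a :=
  Finset.sum_nonneg (fun _ _ => sq_nonneg _)

lemma lin_zero (n : ℕ) (x : Fin n → Bool) : lin n (fun _ => 0) x = 0 := by
  unfold lin
  simp

lemma nsq_zero (n : ℕ) : nsq n (fun _ => 0) = 0 := by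
  unfold nsq
  simp

lemma sgn_sq (b : Bool) : sgn b ^ 2 = 1 := by
  cases b <;> simp [sgn]

lemma sgn_true : sgn true = 1 := by simp [sgn]

lemma sgn_false : sgn false = -1 := by simp [sgn]

end Vale.Agent.Lib.P322
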