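import Mathlib
import Vale.Agent.Lib.P322.Lin
import Vale.Agent.Lib.P322.Universal
import Vale.Agent.Lib.P322.helper79.Moments

namespace Vale.Agent.Lib.P322

open Finset

/-- Flip the bits of `x` in the coordinate set `J`. -/
def flipOn {n : ℕ} (J : Finset (Fin n)) (x : Fin n → Bool) : Fin n → Bool :=
  fun j => if j ∈ J then !(x j) else x j

lemma flipOn_invol {n : ℕ} (J : Finset (Fin n)) : Function.Involutive (flipOn J) := by
  intro x
  funext j
  unfold flipOn
  split_ifs <;> simp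

lemma avg_flipOn {n : ℕ} (J : Finset (Fin n)) (F : (Fin n → Bool) → ℝ) :
    avg n (fun x => F (flipOn J x)) = avg n F := by
  unfold avg
  exact congrArg _ (Equiv.sum_comp (Function.Involutive.toPerm (flipOn J) (flipOn_invol J)) F)

lemma sgn_not (b : Bool) : sgn (!b) = -sgn b := by
  cases b <;> simp [sgn]

/-- The coefficients of `c` outside `J`. -/
noncomputable def offJ {n : ℕ} (c : Fin n → ℝ) (J : Finset (Fin n)) : Fin n → ℝ :=
  fun j => if j ∈ J then 0 else c j

/-- The coefficients of `c` inside `J`. -/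
noncomputable def onJ {n : ℕ} (c : Fin n → ℝ) (J : Finset (Fin n)) : Fin n → ℝ :=
  fun j => if j ∈ J then c j else 0

lemma offJ_mul_onJ {n : ℕ} (c : Fin n → ℝ) (J : Finset (Fin n)) (j : Fin n) :
    offJ c J j * onJ c J j = 0 := by
  unfold offJ onJ
  split_ifs <;> simp

lemma lin_off_add_on {n : ℕ} (c : Fin n → ℝ) (J : Finset (Fin n)) (x : Fin n → Bool) :
    lin n (offJ c J) x + lin n (onJ c J) x = lin n c x := by
  unfold lin offJ onJ
  rw [← Finset.sum_add_distrib]
  refine Finset.sum_congr rfl (fun j _ => ?_)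
  split_ifs <;> ring

lemma lin_off_flip {n : ℕ} (c : Fin n → ℝ) (J : Finset (Fin n)) (x : Fin n → Bool) :
    lin n (offJ c J) (flipOn J x) = lin n (offJ c J) x := by
  unfold lin offJ flipOn
  refine Finset.sum_congr rfl (fun j _ => ?_)
  split_ifs <;> simp

lemma lin_on_flip {n : ℕ} (c : Fin n → ℝ) (J : Finset (Fin n)) (x : Fin n → Bool) :
    lin n (onJ c J) (flipOn J x) = -lin n (onJ c J) x := by
  unfold lin onJ flipOn
  rw [← Finset.sum_neg_distrib]
  refine Finset.sum_congr rfl (fun j _ => ?_)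
  split_ifs <;> simp [sgn_not]

lemma nsq_off_add_on {n : ℕ} (c : Fin n → ℝ) (J : Finset (Fin n)) :
    nsq n (offJ c J) + nsq n (onJ c J) = nsq n c := by
  unfold nsq offJ onJ
  rw [← Finset.sum_add_distrib]
  refine Finset.sum_congr rfl (fun j _ => ?_)
  split_ifs <;> ring

lemma nsq_on {n : ℕ} (c : Fin n → ℝ) (J : Finset (Fin n)) :
    nsq n (onJ c J) = ∑ j ∈ J, c j ^ 2 := by
  unfold nsq onJ
  have h : ∀ j : Fin n, (if j ∈ J then c j else 0) ^ 2 = if j ∈ J then c j ^ 2 else 0 := by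
    intro j
    split_ifs <;> simp
  simp only [h]
  rw [Finset.sum_ite_mem, Finset.univ_inter]

lemma abs_add_abs_sub (s t : ℝ) (h : |t| ≤ |s|) : |s + t| + |s - t| = 2 * |s| := by
  rcases abs_cases s with ⟨hs, hs0⟩ | ⟨hs, hs0⟩
  · rw [hs] at h ⊢
    have ht := abs_le.mp h
    rw [abs_of_nonneg (by linarith), abs_of_nonneg (by linarith)]
    ring
  · rw [hs] at h ⊢
    have ht := abs_le.mp h
    rw [abs_of_nonpos (by linarith), abs_of_nonpos (by linarith)]
    ring

lemma max_sq_le (s t m : ℝ) (hm : 0 < m) :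
    ((|s + t| + |s - t|) / 2) ^ 2 ≤
      s ^ 2 + t ^ 2 - 2 / m * (s ^ 2 * t ^ 2) + 1 / m ^ 2 * (s ^ 4 * t ^ 2 + t ^ 4 * s ^ 2) := by
  have key : ∀ p r : ℝ, |r| ≤ |p| → ((|p + r| + |p - r|) / 2) ^ 2 ≤
      p ^ 2 + r ^ 2 - 2 / m * (p ^ 2 * r ^ 2) + 1 / m ^ 2 * (p ^ 4 * r ^ 2 + r ^ 4 * p ^ 2) := by
    intro p r h
    rw [abs_add_abs_sub p r h]
    have e1 : (2 * |p| / 2) ^ 2 = p ^ 2 := by
      rw [mul_div_cancel_left₀ _ (two_ne_zero)]
      exact sq_abs p
    rw [e1]
    have e2 : p ^ 2 + r ^ 2 - 2 / m * (p ^ 2 * r ^ 2) +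
        1 / m ^ 2 * (p ^ 4 * r ^ 2 + r ^ 4 * p ^ 2) =
        p ^ 2 + r ^ 2 * ((1 - p ^ 2 / m) ^ 2 + p ^ 2 * r ^ 2 / m ^ 2) := by
      field_simp
      ring
    rw [e2]
    have : 0 ≤ r ^ 2 * ((1 - p ^ 2 / m) ^ 2 + p ^ 2 * r ^ 2 / m ^ 2) := by positivity
    linarith
  rcases le_total |t| |s| with h | h
  · exact key s t h
  · have h2 := key t s h
    have e : |t + s| + |t - s| = |s + t| + |s - t| := by
      rw [add_comm t s, abs_sub_comm t s]
    rw [e] at h2
    refine le_trans h2 (le_of_eq ?_)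
    ring

lemma avg_sq_le (n : ℕ) (G : (Fin n → Bool) → ℝ) : (avg n G) ^ 2 ≤ avg n (fun x => G x ^ 2) := by
  have h := avg_sq_div_le n G (fun _ => 1) (fun _ => one_pos)
  rw [avg_const] at h
  simpa using h

lemma avg_lin5 (n : ℕ) (k1 k2 k3 k4 k5 : ℝ) (F1 F2 F3 F4 F5 : (Fin n → Bool) → ℝ) :
    avg n (fun x => k1 * F1 x + k2 * F2 x + k3 * F3 x + k4 * F4 x + k5 * F5 x) =
      k1 * avg n F1 + k2 * avg n F2 + k3 * avg n F3 + k4 * avg n F4 + k5 * avg n F5 := by
  unfold avg
  simp only [Finset.sum_add_distrib, ← Finset.mul_sum]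
  ring

lemma avg_sgn_lin (n : ℕ) (f : (Fin n → Bool) → Bool) :
    avg n (fun x => sgn (f x) * (fmean n f + lin n (fcoef n f) x)) =
      fmean n f ^ 2 + nsq n (fcoef n f) := by
  have h1 : avg n (fun x => sgn (f x)) = fmean n f := by
    unfold fmean avg
    exact (div_two_pow n _).symm
  have h2 : avg n (fun x => sgn (f x) * lin n (fcoef n f) x) = nsq n (fcoef n f) := by
    have hx : ∀ x : Fin n → Bool, sgn (f x) * lin n (fcoef n f) x =
        ∑ j, fcoef n f j * (sgn (f x) * sgn (x j)) := by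
      intro x
      unfold lin
      rw [Finset.mul_sum]
      refine Finset.sum_congr rfl (fun j _ => ?_)
      ring
    unfold avg nsq
    simp only [hx]
    rw [Finset.sum_comm, Finset.mul_sum]
    refine Finset.sum_congr rfl (fun j _ => ?_)
    rw [← Finset.mul_sum]
    have hj : fcoef n f j = (1 / 2 : ℝ) ^ n * ∑ x, sgn (f x) * sgn (x j) := by
      unfold fcoef
      exact div_two_pow n _
    rw [sq, mul_left_comm, ← hj]
  have e : (fun x => sgn (f x) * (fmean n f + lin n (fcoef n f) x)) =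
      (fun x => fmean n f * sgn (f x) + 1 * (sgn (f x) * lin n (fcoef n f) x)) := by
    funext x
    ring
  rw [e, avg_lin, h1, h2]
  ring

lemma sgn_mul_le_abs (b : Bool) (t : ℝ) : sgn b * t ≤ |t| := by
  cases b
  · simp only [sgn_false]
    have := neg_abs_le t
    linarith
  · simp only [sgn_true]
    have := le_abs_self t
    linarith

/-- Real-number core of the split bound. -/
lemma split_real {S u v G Q4 R4 : ℝ} (hu : 0 ≤ u) (hv : 0 ≤ v) (hS : u + v = S)
    (hG : S ≤ G)
    (hQ : Q4 ≤ 3 * u ^ 2 * v) (hR : R4 ≤ 3 * v ^ 2 * u)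
    (hmain : ∀ m : ℝ, 0 < m → G ^ 2 ≤ u + v - 2 / m * (u * v) + 1 / m ^ 2 * (Q4 + R4)) :
    u * v ≤ 3 * (1 - S) * S ^ 2 := by
  have hS0 : 0 ≤ S := by linarith
  rcases eq_or_lt_of_le hS0 with h0 | hpos
  · have hu0 : u = 0 := by linarith
    rw [hu0, ← h0]
    simp
  · have hm := hmain (3 * S) (by linarith)
    have hG2 : S ^ 2 ≤ G ^ 2 := by nlinarith
    have h1 : 1 / (3 * S) ^ 2 * (Q4 + R4) ≤ 1 / (3 * S) ^ 2 * (3 * u * v * S) := by
      apply mul_le_mul_of_nonneg_left _ (by positivity)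
      have : 3 * u ^ 2 * v + 3 * v ^ 2 * u = 3 * u * v * S := by rw [← hS]; ring
      linarith
    have h2 : u + v - 2 / (3 * S) * (u * v) + 1 / (3 * S) ^ 2 * (3 * u * v * S) =
        S - u * v / (3 * S) := by
      rw [hS]
      field_simp
      ring
    have h3 : S ^ 2 ≤ S - u * v / (3 * S) := by linarith
    have h4 : u * v / (3 * S) ≤ S - S ^ 2 := by linarith
    rw [div_le_iff₀ (by linarith)] at h4
    nlinarith

/-- FKN-type split bound: for every set `J` of coordinates, the degree-one Fourier weight of a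
Boolean function inside `J`, times the rest of its weight at degree at most one, is at most
`3 W (1 - W)^2`, where `W` is the weight above degree one. -/
theorem split_bound (n : ℕ) (f : (Fin n → Bool) → Bool) (J : Finset (Fin n)) :
    (1 - highWeight n f - ∑ j ∈ J, fcoef n f j ^ 2) * (∑ j ∈ J, fcoef n f j ^ 2) ≤
      3 * highWeight n f * (1 - highWeight n f) ^ 2 := by
  have hab : ∀ j, offJ (fcoef n f) J j * onJ (fcoef n f) J j = 0 := offJ_mul_onJ (fcoef n f) J
  have hba : ∀ j, onJ (fcoef n f) J j * offJ (fcoef n f) J j = 0 := fun j => by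
    rw [mul_comm]
    exact hab j
  obtain ⟨m1, m2⟩ := moments n (fmean n f) 0 (offJ (fcoef n f) J) (onJ (fcoef n f) J) hab
  obtain ⟨-, m3⟩ := moments n 0 (fmean n f) (onJ (fcoef n f) J) (offJ (fcoef n f) J) hba
  obtain ⟨m4, -⟩ := moments n (fmean n f) 1 (offJ (fcoef n f) J) (fun _ => 0)
    (fun j => mul_zero _)
  obtain ⟨m5, -⟩ := moments n 1 0 (fun _ => 0) (onJ (fcoef n f) J) (fun j => zero_mul _)
  simp only [zero_add, ne_eq, OfNat.ofNat_ne_zero, not_false_eq_true, zero_pow] at m1 m2 m3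
  simp only [lin_zero, nsq_zero, add_zero, one_pow, mul_one] at m4
  simp only [lin_zero, nsq_zero, add_zero, one_pow, one_mul, zero_add, ne_eq,
    OfNat.ofNat_ne_zero, not_false_eq_true, zero_pow] at m5
  have hv0 : 0 ≤ nsq n (onJ (fcoef n f) J) := nsq_nonneg n _
  have hu0 : 0 ≤ fmean n f ^ 2 + nsq n (offJ (fcoef n f) J) :=
    add_nonneg (sq_nonneg _) (nsq_nonneg n _)
  have hS : fmean n f ^ 2 + nsq n (offJ (fcoef n f) J) + nsq n (onJ (fcoef n f) J) =
      1 - highWeight n f := by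
    rw [add_assoc, nsq_off_add_on]
    unfold highWeight nsq
    ring
  -- the mean of |L| dominates the weight at degree at most one
  have hL : 1 - highWeight n f ≤
      avg n (fun x => |fmean n f + lin n (fcoef n f) x|) := by
    have h1 := avg_sgn_lin n f
    have h2 : avg n (fun x => sgn (f x) * (fmean n f + lin n (fcoef n f) x)) ≤
        avg n (fun x => |fmean n f + lin n (fcoef n f) x|) :=
      avg_mono n _ _ (fun x => sgn_mul_le_abs _ _)
    have h3 : fmean n f ^ 2 + nsq n (fcoef n f) = 1 - highWeight n f := by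
      unfold highWeight nsq
      ring
    linarith
  -- symmetrisation
  have hflip : avg n (fun x => |fmean n f + lin n (offJ (fcoef n f) J) x -
        lin n (onJ (fcoef n f) J) x|) =
      avg n (fun x => |fmean n f + lin n (offJ (fcoef n f) J) x +
        lin n (onJ (fcoef n f) J) x|) := by
    have h := avg_flipOn J (fun x => |fmean n f + lin n (offJ (fcoef n f) J) x +
        lin n (onJ (fcoef n f) J) x|)
    rw [← h]
    congr 1
    funext x
    rw [lin_off_flip, lin_on_flip, sub_eq_add_neg]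
  have hLU : (fun x => |fmean n f + lin n (fcoef n f) x|) =
      (fun x => |fmean n f + lin n (offJ (fcoef n f) J) x + lin n (onJ (fcoef n f) J) x|) := by
    funext x
    rw [add_assoc, lin_off_add_on]
  have hG : avg n (fun x => (|fmean n f + lin n (offJ (fcoef n f) J) x +
        lin n (onJ (fcoef n f) J) x| + |fmean n f + lin n (offJ (fcoef n f) J) x -
        lin n (onJ (fcoef n f) J) x|) / 2) =
      avg n (fun x => |fmean n f + lin n (fcoef n f) x|) := by
    have e : (fun x => (|fmean n f + lin n (offJ (fcoef n f) J) x +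
        lin n (onJ (fcoef n f) J) x| + |fmean n f + lin n (offJ (fcoef n f) J) x -
        lin n (onJ (fcoef n f) J) x|) / 2) =
        (fun x => 1 / 2 * |fmean n f + lin n (offJ (fcoef n f) J) x +
        lin n (onJ (fcoef n f) J) x| + 1 / 2 * |fmean n f + lin n (offJ (fcoef n f) J) x -
        lin n (onJ (fcoef n f) J) x|) := by
      funext x
      ring
    rw [e, avg_lin, hflip, hLU]
    ring
  refine le_trans (le_of_eq ?_) (le_trans (split_real hu0 hv0 hS (hG ▸ hL) m2 m3 ?_)
    (le_of_eq ?_))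
  · rw [← nsq_on, ← hS]
    ring
  · intro m hm
    refine le_trans (avg_sq_le n _) ?_
    have hpt : ∀ x : Fin n → Bool,
        ((|fmean n f + lin n (offJ (fcoef n f) J) x + lin n (onJ (fcoef n f) J) x| +
          |fmean n f + lin n (offJ (fcoef n f) J) x - lin n (onJ (fcoef n f) J) x|) / 2) ^ 2 ≤
        1 * (fmean n f + lin n (offJ (fcoef n f) J) x) ^ 2 +
          1 * (lin n (onJ (fcoef n f) J) x) ^ 2 +
          (-(2 / m)) * ((fmean n f + lin n (offJ (fcoef n f) J) x) ^ 2 *
            (lin n (onJ (fcoef n f) J) x) ^ 2) +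
          1 / m ^ 2 * ((fmean n f + lin n (offJ (fcoef n f) J) x) ^ 4 *
            (lin n (onJ (fcoef n f) J) x) ^ 2) +
          1 / m ^ 2 * ((lin n (onJ (fcoef n f) J) x) ^ 4 *
            (fmean n f + lin n (offJ (fcoef n f) J) x) ^ 2) := by
      intro x
      refine le_trans (max_sq_le _ _ m hm) (le_of_eq ?_)
      ring
    refine le_trans (avg_mono n _ _ hpt) (le_of_eq ?_)
    rw [avg_lin5, m1, m4, m5]
    ring
  · ring

end Vale.Agent.Lib.P322
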