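import Mathlib
import Vale.Agent.Lib.P322.Split
import Vale.Agent.Lib.P322.Coord
import Vale.Agent.Lib.P322.helper19.Biased

namespace Vale.Agent.Lib.P322

open Finset

/-- If the Fourier weight above degree one is below `2/27`, no set of coordinates carries
between one third and two thirds of the weight at degree at most one. -/
lemma no_middle (n : ℕ) (f : (Fin n → Bool) → Bool) (hW : highWeight n f < 2 / 27)
    (J : Finset (Fin n)) :
    ∑ j ∈ J, fcoef n f j ^ 2 < (1 - highWeight n f) / 3 ∨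
      2 * (1 - highWeight n f) / 3 < ∑ j ∈ J, fcoef n f j ^ 2 := by
  by_contra h
  rw [not_or, not_lt, not_lt] at h
  obtain ⟨h1, h2⟩ := h
  have hs := split_bound n f J
  have hW0 := highWeight_nonneg n f
  obtain ⟨v, hv⟩ : ∃ v : ℝ, v = ∑ j ∈ J, fcoef n f j ^ 2 := ⟨_, rfl⟩
  obtain ⟨d, hd⟩ : ∃ d : ℝ, d = highWeight n f := ⟨_, rfl⟩
  rw [← hv, ← hd] at h1 h2 hs
  rw [← hd] at hW hW0
  have hS : 0 < 1 - d := by linarith
  have hprod : 0 ≤ (v - (1 - d) / 3) * (2 * (1 - d) / 3 - v) :=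
    mul_nonneg (by linarith) (by linarith)
  have hS2 : 0 < (1 - d) ^ 2 := by positivity
  nlinarith

/-- Gap induction: if every coordinate of `J` is small, the whole of `J` is small. -/
lemma small_sum (n : ℕ) (f : (Fin n → Bool) → Bool) (hW : highWeight n f < 2 / 27)
    (J : Finset (Fin n))
    (hJ : ∀ j ∈ J, fcoef n f j ^ 2 < (1 - highWeight n f) / 3) :
    ∑ j ∈ J, fcoef n f j ^ 2 < (1 - highWeight n f) / 3 := by
  induction J using Finset.induction_on with
  | empty =>
    rw [Finset.sum_empty]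
    linarith
  | insert j J hj ih =>
    have h1 := ih (fun k hk => hJ k (Finset.mem_insert_of_mem hk))
    have h2 := hJ j (Finset.mem_insert_self j J)
    rcases no_middle n f hW (insert j J) with h | h
    · exact h
    · rw [Finset.sum_insert hj] at h
      linarith

/-- Real-number core of the near-dictator case. -/
lemma dictator_real {t d m2 c2 a : ℝ} (ht0 : 0 ≤ t) (ht1 : t ≤ 1 / 16)
    (hd0 : 0 ≤ d) (hd1 : d < 2 / 27) (hm0 : 0 ≤ m2) (hm : m2 ≤ 1 - d - c2)
    (hc : 2 * (1 - d) / 3 < c2) (hs : (1 - d - c2) * c2 ≤ 3 * d * (1 - d) ^ 2)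
    (ha : a = c2 / (1 - m2)) (ha1 : a ≤ 1) :
    t * (1 - a) * (1 + (1 - t) * a) ≤ (1 - t) ^ 2 * (1 - t * a) * d := by
  have hS : 0 < 1 - d := by linarith
  -- s = 1 - d - c2 is at most (9/2) d
  have hs0 : 0 ≤ 1 - d - c2 := by linarith
  have hs1 : 1 - d - c2 ≤ 9 / 2 * d := by
    have h1 : (1 - d - c2) * (2 * (1 - d) / 3) ≤ (1 - d - c2) * c2 :=
      mul_le_mul_of_nonneg_left hc.le hs0
    have h2 : (1 - d - c2) * (2 * (1 - d) / 3) ≤ 3 * d * (1 - d) ^ 2 := le_trans h1 hs
    have h3 : (1 - d - c2) * 2 ≤ 9 * d * (1 - d) := by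
      by_contra hcon
      rw [not_le] at hcon
      have := mul_lt_mul_of_pos_right hcon hS
      nlinarith
    nlinarith
  have hD : 0 < 1 - m2 := by linarith
  have hA : 1 - a ≤ 11 / 2 * d := by
    rw [ha]
    have e : 1 - c2 / (1 - m2) = (1 - m2 - c2) / (1 - m2) := by
      field_simp
    rw [e, div_le_iff₀ hD]
    have hc2 : 0 ≤ c2 := by linarith
    nlinarith
  have hA0 : 0 ≤ 1 - a := by linarith
  have h1 : t * (1 - a) * (1 + (1 - t) * a) ≤ t * (11 / 2 * d) * (2 - t) := by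
    have k1 : t * (1 - a) ≤ t * (11 / 2 * d) := mul_le_mul_of_nonneg_left hA ht0
    have k2 : 1 + (1 - t) * a ≤ 2 - t := by nlinarith
    have k3 : 0 ≤ 1 + (1 - t) * a := by nlinarith
    have k4 : 0 ≤ t * (11 / 2 * d) := by positivity
    exact mul_le_mul k1 k2 k3 k4
  have h2 : (1 - t) ^ 3 * d ≤ (1 - t) ^ 2 * (1 - t * a) * d := by
    have k1 : 1 - t ≤ 1 - t * a := by nlinarith
    have k2 : 0 ≤ (1 - t) ^ 2 := sq_nonneg _
    have k3 : (1 - t) ^ 2 * (1 - t) ≤ (1 - t) ^ 2 * (1 - t * a) :=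
      mul_le_mul_of_nonneg_left k1 k2
    have k4 : (1 - t) ^ 3 = (1 - t) ^ 2 * (1 - t) := by ring
    rw [k4]
    exact mul_le_mul_of_nonneg_right k3 hd0
  have h3 : t * (11 / 2 * d) * (2 - t) ≤ (1 - t) ^ 3 * d := by
    have k1 : 11 / 2 * t * (2 - t) ≤ (1 - t) ^ 3 := by nlinarith
    have k2 := mul_le_mul_of_nonneg_right k1 hd0
    linarith
  linarith

/-- The Courtade-Kumar inequality for every Boolean function at every crossover probability
in `[3/8, 1/2]`. -/
theorem ck_high_noise (n : ℕ) (f : (Fin n → Bool) → Bool) (e : ℝ) (he : 3 / 8 ≤ e)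
    (he' : e ≤ 1 / 2) : mutualInfo (joint n e f) ≤ 1 - h2 e := by
  have h0 : 0 < e := by linarith
  have ht0 : 0 ≤ (1 - 2 * e) ^ 2 := sq_nonneg _
  have ht1 : (1 - 2 * e) ^ 2 ≤ 1 / 16 := by nlinarith
  have hW0 := highWeight_nonneg n f
  by_cases hfar : (1 - 2 * e) ^ 2 ≤ (1 - (1 - 2 * e) ^ 2) ^ 2 * highWeight n f
  · exact ck_of_highWeight n e h0 he' f hfar
  · rw [not_le] at hfar
    have hW : highWeight n f < 2 / 27 := by
      by_contra hcon
      rw [not_lt] at hcon
      have k1 : (15 / 16 : ℝ) ^ 2 ≤ (1 - (1 - 2 * e) ^ 2) ^ 2 := by nlinarith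
      have k2 : (15 / 16 : ℝ) ^ 2 * (2 / 27) ≤
          (1 - (1 - 2 * e) ^ 2) ^ 2 * highWeight n f :=
        mul_le_mul k1 hcon (by norm_num) (sq_nonneg _)
      norm_num at k2
      linarith
    have hsum : 1 - highWeight n f = fmean n f ^ 2 + ∑ j, fcoef n f j ^ 2 := by
      unfold highWeight
      ring
    by_cases hbig : ∃ i, 2 * (1 - highWeight n f) / 3 < fcoef n f i ^ 2
    · obtain ⟨i, hi⟩ := hbig
      have hs := split_bound n f {i}
      rw [Finset.sum_singleton] at hs
      have hle : fcoef n f i ^ 2 ≤ ∑ j, fcoef n f j ^ 2 :=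
        Finset.single_le_sum (f := fun j => fcoef n f j ^ 2) (fun j _ => sq_nonneg _)
          (Finset.mem_univ i)
      exact ck_of_coord n e h0 he' f i
        (dictator_real ht0 ht1 hW0 hW (sq_nonneg (fmean n f)) (by linarith) hi hs rfl
          (coordShare_le_one n f i))
    · have hsmall : ∀ j ∈ (Finset.univ : Finset (Fin n)),
          fcoef n f j ^ 2 < (1 - highWeight n f) / 3 := by
        intro j _
        rcases no_middle n f hW {j} with h | h
        · rwa [Finset.sum_singleton] at h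
        · rw [Finset.sum_singleton] at h
          exact absurd ⟨j, h⟩ hbig
      have hw := small_sum n f hW Finset.univ hsmall
      exact ck_of_biased n e h0.le he' f (by linarith)

end Vale.Agent.Lib.P322
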