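import Mathlib

namespace Vale.Agent.Lib.P322

/-- From the fourth-moment singleton bound: the weight off a coordinate of absolute value
`A ≥ 2/3` is at most `(1 - A)(4 - A)/3`. -/
lemma near_u_le {A u : ℝ} (hA : 2 / 3 ≤ A) (hA1 : A ≤ 1) (hu1 : u ≤ 1 - A ^ 2)
    (hs2 : 256 * A ^ 3 * (A ^ 2 + u) ≤ 256 * A ^ 4 + 81 * u ^ 2) :
    u ≤ (1 - A) * (4 - A) / 3 := by
  by_contra hcon
  rw [not_le] at hcon
  have hQ : 0 ≤ 81 * u ^ 2 - 256 * A ^ 3 * u + 256 * A ^ 4 * (1 - A) := by nlinarith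
  have hA3 : (8 / 27 : ℝ) ≤ A ^ 3 := by
    have h := pow_le_pow_left₀ (by norm_num : (0 : ℝ) ≤ 2 / 3) hA 3
    norm_num at h
    linarith
  obtain ⟨U, hU⟩ : ∃ U : ℝ, U = (1 - A) * (4 - A) / 3 := ⟨_, rfl⟩
  rw [← hU] at hcon
  have h1 : 81 * U ^ 2 - 256 * A ^ 3 * U + 256 * A ^ 4 * (1 - A) =
      (1 - A) ^ 2 * (9 * (4 - A) ^ 2 - 1024 / 3 * A ^ 3) := by
    rw [hU]
    ring
  have h2 : 9 * (4 - A) ^ 2 - 1024 / 3 * A ^ 3 ≤ 0 := by
    have k1 : (4 - A) ^ 2 ≤ (10 / 3) ^ 2 := by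
      apply pow_le_pow_left₀ (by linarith) (by linarith)
    nlinarith
  have h3 : 81 * (u + U) - 256 * A ^ 3 < 0 := by
    have k1 : 81 * (u + U) ≤ 27 * ((1 - A) * (7 + 2 * A)) := by
      rw [hU]
      nlinarith
    have k2 : (1 - A) * (7 + 2 * A) ≤ 25 / 9 := by nlinarith
    nlinarith
  have h4 : 81 * u ^ 2 - 256 * A ^ 3 * u + 256 * A ^ 4 * (1 - A) =
      (81 * U ^ 2 - 256 * A ^ 3 * U + 256 * A ^ 4 * (1 - A)) +
        (u - U) * (81 * (u + U) - 256 * A ^ 3) := by ring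
  have h5 : (u - U) * (81 * (u + U) - 256 * A ^ 3) < 0 :=
    mul_neg_of_pos_of_neg (by linarith) h3
  have h6 : (1 - A) ^ 2 * (9 * (4 - A) ^ 2 - 1024 / 3 * A ^ 3) ≤ 0 :=
    mul_nonpos_of_nonneg_of_nonpos (sq_nonneg _) h2
  linarith

/-- Monotonicity in the noise parameter of the left side of the sharpened criterion. -/
lemma near_t_mono {t a : ℝ} (ht0 : 0 ≤ t) (ht1 : t ≤ 4 / 25) (ha0 : 0 ≤ a) :
    t * (1 + (1 - t) * a - (1 - t) * (1 - t * a) / 6) ≤ 4 / 25 * (43 / 50 + 539 / 625 * a) := by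
  have id : 4 / 25 * (43 / 50 + 539 / 625 * a) -
      t * (1 + (1 - t) * a - (1 - t) * (1 - t * a) / 6) =
      (4 / 25 - t) * ((5 / 6 + a) + (4 / 25 + t) * (1 / 6 - 5 * a / 6) -
        ((4 / 25) ^ 2 + 4 / 25 * t + t ^ 2) * a / 6) := by ring
  have hb : 0 ≤ (5 / 6 + a) + (4 / 25 + t) * (1 / 6 - 5 * a / 6) -
      ((4 / 25) ^ 2 + 4 / 25 * t + t ^ 2) * a / 6 := by
    have k1 : (4 / 25 + t) * (5 * a / 6) ≤ 8 / 25 * (5 * a / 6) :=
      mul_le_mul_of_nonneg_right (by linarith) (by linarith)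
    have k2 : ((4 / 25) ^ 2 + 4 / 25 * t + t ^ 2) * a / 6 ≤ 3 * (4 / 25) ^ 2 * a / 6 := by
      have : (4 / 25 : ℝ) ^ 2 + 4 / 25 * t + t ^ 2 ≤ 3 * (4 / 25) ^ 2 := by nlinarith
      have := mul_le_mul_of_nonneg_right this ha0
      linarith
    have k3 : 0 ≤ (4 / 25 + t) * (1 / 6) := by positivity
    nlinarith
  have := mul_nonneg (by linarith : (0 : ℝ) ≤ 4 / 25 - t) hb
  linarith

/-- The sharpened coordinate criterion at `a = A^2`. -/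
lemma near_crit0 {t A d : ℝ} (ht0 : 0 ≤ t) (ht1 : t ≤ 4 / 25) (hA : 2 / 3 ≤ A) (hA1 : A ≤ 1)
    (hd : (1 - A) * (4 * A - 1) / 3 ≤ d) :
    t * (1 - A ^ 2) * (1 + (1 - t) * A ^ 2 - (1 - t) * (1 - t * A ^ 2) / 6) ≤
      (1 - t) ^ 2 * (1 - t * A ^ 2) * d := by
  have hA2 : 0 ≤ A ^ 2 := sq_nonneg A
  have hA21 : A ^ 2 ≤ 1 := by nlinarith
  have m1 := near_t_mono ht0 ht1 hA2
  have hd0 : 0 ≤ (1 - A) * (4 * A - 1) / 3 := by
    have : 0 ≤ (1 - A) * (4 * A - 1) := mul_nonneg (by linarith) (by linarith)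
    linarith
  have hd' : 0 ≤ d := le_trans hd0 hd
  -- the core polynomial inequality in A
  have core : 4 / 25 * (1 + A) * (43 / 50 + 539 / 625 * A ^ 2) ≤
      441 / 625 * (1 - 4 / 25 * A ^ 2) * ((4 * A - 1) / 3) := by
    have k := mul_nonneg (by linarith : (0 : ℝ) ≤ A - 2 / 3) (by linarith : (0 : ℝ) ≤ 1 - A)
    nlinarith [mul_nonneg k (by linarith : (0 : ℝ) ≤ A)]
  -- monotonicity of the right side in t
  have m2 : 441 / 625 * (1 - 4 / 25 * A ^ 2) ≤ (1 - t) ^ 2 * (1 - t * A ^ 2) := by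
    have k1 : (21 / 25 : ℝ) ^ 2 ≤ (1 - t) ^ 2 :=
      pow_le_pow_left₀ (by norm_num) (by linarith) 2
    have k2 : 1 - 4 / 25 * A ^ 2 ≤ 1 - t * A ^ 2 := by nlinarith
    have k3 : (0 : ℝ) ≤ 1 - 4 / 25 * A ^ 2 := by nlinarith
    have := mul_le_mul k1 k2 k3 (sq_nonneg (1 - t))
    norm_num at this ⊢
    linarith
  have s1 : t * (1 - A ^ 2) * (1 + (1 - t) * A ^ 2 - (1 - t) * (1 - t * A ^ 2) / 6) ≤
      (1 - A) * (4 / 25 * (1 + A) * (43 / 50 + 539 / 625 * A ^ 2)) := by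
    have e : t * (1 - A ^ 2) * (1 + (1 - t) * A ^ 2 - (1 - t) * (1 - t * A ^ 2) / 6) =
        (1 - A) * (1 + A) * (t * (1 + (1 - t) * A ^ 2 - (1 - t) * (1 - t * A ^ 2) / 6)) := by
      ring
    rw [e]
    have := mul_le_mul_of_nonneg_left m1
      (mul_nonneg (by linarith : (0 : ℝ) ≤ 1 - A) (by linarith : (0 : ℝ) ≤ 1 + A))
    linarith
  have s2 : (1 - A) * (4 / 25 * (1 + A) * (43 / 50 + 539 / 625 * A ^ 2)) ≤
      441 / 625 * (1 - 4 / 25 * A ^ 2) * ((1 - A) * (4 * A - 1) / 3) := by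
    have := mul_le_mul_of_nonneg_left core (by linarith : (0 : ℝ) ≤ 1 - A)
    linarith
  have s3 : 441 / 625 * (1 - 4 / 25 * A ^ 2) * ((1 - A) * (4 * A - 1) / 3) ≤
      441 / 625 * (1 - 4 / 25 * A ^ 2) * d :=
    mul_le_mul_of_nonneg_left hd (by nlinarith)
  have s4 : 441 / 625 * (1 - 4 / 25 * A ^ 2) * d ≤ (1 - t) ^ 2 * (1 - t * A ^ 2) * d :=
    mul_le_mul_of_nonneg_right m2 hd'
  linarith

/-- Monotonicity of the sharpened criterion in the coordinate share. -/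
lemma near_mono {t a0 a : ℝ} (ht0 : 0 ≤ t) (ht1 : t ≤ 4 / 25) (ha0 : 4 / 9 ≤ a0)
    (h01 : a0 ≤ a) (ha1 : a ≤ 1) :
    (1 - a) * (1 + (1 - t) * a - (1 - t) * (1 - t * a) / 6) * (1 - t * a0) ≤
      (1 - a0) * (1 + (1 - t) * a0 - (1 - t) * (1 - t * a0) / 6) * (1 - t * a) := by
  have id : (1 - a0) * (1 + (1 - t) * a0 - (1 - t) * (1 - t * a0) / 6) * (1 - t * a) -
      (1 - a) * (1 + (1 - t) * a - (1 - t) * (1 - t * a) / 6) * (1 - t * a0) =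
      (a - a0) * ((1 - (1 - t) / 6) * (1 - t) +
        (1 - t) * (1 + t / 6) * (a + a0 - 1 - t * a * a0)) := by ring
  have hb : 0 ≤ (1 - (1 - t) / 6) * (1 - t) +
      (1 - t) * (1 + t / 6) * (a + a0 - 1 - t * a * a0) := by
    have k0 : 0 ≤ 1 - t := by linarith
    have k1 : 0 ≤ (1 - t) * ((1 - (1 - t) / 6) + (1 + t / 6) * (a + a0 - 1 - t * a * a0)) := by
      apply mul_nonneg k0
      have k2 : t * a * a0 ≤ 4 / 25 := by
        have : a * a0 ≤ 1 := by nlinarith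
        nlinarith
      have k3 : -(1 / 9) - 4 / 25 ≤ a + a0 - 1 - t * a * a0 := by linarith
      have k4 : (1 + t / 6) * (a + a0 - 1 - t * a * a0) ≥ (1 + t / 6) * (-(1 / 9) - 4 / 25) :=
        mul_le_mul_of_nonneg_left k3 (by linarith)
      nlinarith
    nlinarith
  have := mul_nonneg (by linarith : (0 : ℝ) ≤ a - a0) hb
  linarith

/-- Real-number core of the near-dictator case: the sharpened coordinate criterion. -/
lemma near_dictator_real {t A d m2 a : ℝ} (ht0 : 0 ≤ t) (ht1 : t ≤ 4 / 25) (hA : 2 / 3 ≤ A)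
    (hA1 : A ≤ 1) (hm0 : 0 ≤ m2) (hd0 : 0 ≤ d) (hm : m2 ≤ 1 - d - A ^ 2)
    (hs2 : 256 * A ^ 3 * (1 - d) ≤ 256 * A ^ 4 + 81 * (1 - d - A ^ 2) ^ 2)
    (ha : a = A ^ 2 / (1 - m2)) (ha1 : a ≤ 1) :
    t * (1 - a) * (1 + (1 - t) * a - (1 - t) * (1 - t * a) / 6) ≤
      (1 - t) ^ 2 * (1 - t * a) * d := by
  have hu := near_u_le (u := 1 - d - A ^ 2) hA hA1 (by linarith)
    (by
      have e : A ^ 2 + (1 - d - A ^ 2) = 1 - d := by ring
      rw [e]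
      exact hs2)
  have hd : (1 - A) * (4 * A - 1) / 3 ≤ d := by nlinarith
  have hm1 : 0 < 1 - m2 := by nlinarith
  have hA2 : 4 / 9 ≤ A ^ 2 := by nlinarith
  have h01 : A ^ 2 ≤ a := by
    rw [ha, le_div_iff₀ hm1]
    nlinarith
  have c0 := near_crit0 ht0 ht1 hA hA1 hd
  have mo := near_mono ht0 ht1 hA2 h01 ha1
  have hp : 0 < 1 - t * A ^ 2 := by nlinarith
  have hq : 0 ≤ 1 - t * a := by nlinarith
  -- multiply the two and cancel 1 - t A^2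
  have e1 : t * ((1 - a) * (1 + (1 - t) * a - (1 - t) * (1 - t * a) / 6) * (1 - t * A ^ 2)) ≤
      t * ((1 - A ^ 2) * (1 + (1 - t) * A ^ 2 - (1 - t) * (1 - t * A ^ 2) / 6) * (1 - t * a)) :=
    mul_le_mul_of_nonneg_left mo ht0
  have e2 : t * (1 - A ^ 2) * (1 + (1 - t) * A ^ 2 - (1 - t) * (1 - t * A ^ 2) / 6) * (1 - t * a) ≤
      (1 - t) ^ 2 * (1 - t * A ^ 2) * d * (1 - t * a) :=
    mul_le_mul_of_nonneg_right c0 hq
  have e3 : (t * (1 - a) * (1 + (1 - t) * a - (1 - t) * (1 - t * a) / 6)) * (1 - t * A ^ 2) ≤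
      ((1 - t) ^ 2 * (1 - t * a) * d) * (1 - t * A ^ 2) := by
    nlinarith
  exact le_of_mul_le_mul_right e3 hp

end Vale.Agent.Lib.P322
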