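import Mathlib
import Vale.Agent.Lib.P322.Split

namespace Vale.Agent.Lib.P322

open Finset

/-- The Fourier weight at degree at most one is at most the mean of `|L|`, where `L` is the
part of `f` of degree at most one. -/
lemma mean_abs_ge (n : ℕ) (f : (Fin n → Bool) → Bool) :
    1 - highWeight n f ≤ avg n (fun x => |fmean n f + lin n (fcoef n f) x|) := by
  have h1 := avg_sgn_lin n f
  have h2 : avg n (fun x => sgn (f x) * (fmean n f + lin n (fcoef n f) x)) ≤
      avg n (fun x => |fmean n f + lin n (fcoef n f) x|) :=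
    avg_mono n _ _ (fun x => sgn_mul_le_abs _ _)
  have h3 : fmean n f ^ 2 + nsq n (fcoef n f) = 1 - highWeight n f := by
    unfold highWeight nsq
    ring
  linarith

/-- Symmetrisation over the sign flips of the coordinates in `J`. -/
lemma abs_mean_split (n : ℕ) (f : (Fin n → Bool) → Bool) (J : Finset (Fin n)) :
    avg n (fun x => (|fmean n f + lin n (offJ (fcoef n f) J) x +
        lin n (onJ (fcoef n f) J) x| + |fmean n f + lin n (offJ (fcoef n f) J) x -
        lin n (onJ (fcoef n f) J) x|) / 2) =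
      avg n (fun x => |fmean n f + lin n (fcoef n f) x|) := by
  have hflip : avg n (fun x => |fmean n f + lin n (offJ (fcoef n f) J) x -
        lin n (onJ (fcoef n f) J) x|) =
      avg n (fun x => |fmean n f + lin n (offJ (fcoef n f) J) x +
        lin n (onJ (fcoef n f) J) x|) := by
    have h := avg_flipOn J (fun x => |fmean n f + lin n (offJ (fcoef n f) J) x +
        lin n (onJ (fcoef n f) J) x|)
    rw [← h]
    congr 1
    funext x
    rw [lin_off_flip, lin_on_flip, sub_eq_add_neg]
  have hLU : (fun x => |fmean n f + lin n (fcoef n f) x|) =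
      (fun x => |fmean n f + lin n (offJ (fcoef n f) J) x + lin n (onJ (fcoef n f) J) x|) := by
    funext x
    rw [add_assoc, lin_off_add_on]
  have e : (fun x => (|fmean n f + lin n (offJ (fcoef n f) J) x +
      lin n (onJ (fcoef n f) J) x| + |fmean n f + lin n (offJ (fcoef n f) J) x -
      lin n (onJ (fcoef n f) J) x|) / 2) =
      (fun x => 1 / 2 * |fmean n f + lin n (offJ (fcoef n f) J) x +
      lin n (onJ (fcoef n f) J) x| + 1 / 2 * |fmean n f + lin n (offJ (fcoef n f) J) x -
      lin n (onJ (fcoef n f) J) x|) := by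
    funext x
    ring
  rw [e, avg_lin, hflip, hLU]
  ring

lemma half_abs_le_sq (p r : ℝ) : 4 * |p| * ((|p + r| + |p - r|) / 2) ≤ 4 * p ^ 2 + r ^ 2 := by
  have hp := sq_abs p
  have hr := sq_abs r
  rcases le_total |r| |p| with h | h
  · rw [abs_add_abs_sub p r h]
    nlinarith [sq_nonneg r]
  · have e : |p + r| + |p - r| = |r + p| + |r - p| := by
      rw [add_comm p r, abs_sub_comm p r]
    rw [e, abs_add_abs_sub r p h]
    nlinarith [sq_nonneg (2 * |p| - |r|)]

lemma half_abs_le_quartic (p r : ℝ) :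
    256 * |p| ^ 3 * ((|p + r| + |p - r|) / 2) ≤ 256 * p ^ 4 + 27 * r ^ 4 := by
  have hp4 : p ^ 4 = |p| ^ 4 := by
    have : p ^ 4 = (p ^ 2) ^ 2 := by ring
    rw [this, ← sq_abs p]
    ring
  have hr4 : r ^ 4 = |r| ^ 4 := by
    have : r ^ 4 = (r ^ 2) ^ 2 := by ring
    rw [this, ← sq_abs r]
    ring
  have hA : 0 ≤ |p| := abs_nonneg p
  have hy : 0 ≤ |r| := abs_nonneg r
  rw [hp4, hr4]
  rcases le_total |r| |p| with h | h
  · rw [abs_add_abs_sub p r h]
    have : 0 ≤ |r| ^ 4 := by positivity
    nlinarith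
  · have e : |p + r| + |p - r| = |r + p| + |r - p| := by
      rw [add_comm p r, abs_sub_comm p r]
    rw [e, abs_add_abs_sub r p h]
    have key : 0 ≤ (3 * |r| - 4 * |p|) ^ 2 * (3 * |r| ^ 2 + 8 * |p| * |r| + 16 * |p| ^ 2) :=
      mul_nonneg (sq_nonneg _) (by positivity)
    nlinarith

lemma abs_sgn (b : Bool) : |sgn b| = 1 := by
  cases b <;> simp [sgn]

lemma lin_on_single {n : ℕ} (c : Fin n → ℝ) (i : Fin n) (x : Fin n → Bool) :
    lin n (onJ c {i}) x = c i * sgn (x i) := by
  unfold lin onJ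
  rw [Finset.sum_eq_single i]
  · simp
  · intro j _ hj
    simp [hj]
  · intro h
    exact absurd (Finset.mem_univ i) h

lemma offJ_univ {n : ℕ} (c : Fin n → ℝ) : offJ c Finset.univ = fun _ => 0 := by
  funext j
  simp [offJ]

lemma onJ_univ {n : ℕ} (c : Fin n → ℝ) : onJ c Finset.univ = c := by
  funext j
  simp [onJ]

/-- Second moment of an affine form. -/
lemma avg_aff_sq (n : ℕ) (m0 : ℝ) (a : Fin n → ℝ) :
    avg n (fun x => (m0 + lin n a x) ^ 2) = m0 ^ 2 + nsq n a := by
  obtain ⟨m4, -⟩ := moments n m0 1 a (fun _ => 0) (fun j => mul_zero _)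
  simp only [lin_zero, nsq_zero, add_zero, one_pow, mul_one] at m4
  exact m4

/-- Fourth moment bound for an affine form. -/
lemma avg_aff_four (n : ℕ) (m0 : ℝ) (a : Fin n → ℝ) :
    avg n (fun x => (m0 + lin n a x) ^ 4) ≤ 3 * (m0 ^ 2 + nsq n a) ^ 2 := by
  obtain ⟨-, m4⟩ := moments n m0 1 a (fun _ => 0) (fun j => mul_zero _)
  simp only [lin_zero, nsq_zero, add_zero, one_pow, mul_one] at m4
  exact m4

/-- Weight at degree at most one, split at the coordinate set `J`. -/
lemma weight_split (n : ℕ) (f : (Fin n → Bool) → Bool) (J : Finset (Fin n)) :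
    fmean n f ^ 2 + nsq n (offJ (fcoef n f) J) = 1 - highWeight n f - ∑ j ∈ J, fcoef n f j ^ 2 := by
  have h := nsq_off_add_on (fcoef n f) J
  rw [nsq_on] at h
  unfold highWeight
  unfold nsq at h ⊢
  linarith

/-- First singleton bound: `4 |c_i| S ≤ 3 c_i^2 + S` for every coordinate `i`, where `S` is the
Fourier weight at degree at most one. -/
lemma single_coord (n : ℕ) (f : (Fin n → Bool) → Bool) (i : Fin n) :
    4 * |fcoef n f i| * (1 - highWeight n f) ≤ 3 * fcoef n f i ^ 2 + (1 - highWeight n f) := by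
  have hL := mean_abs_ge n f
  have hS := abs_mean_split n f {i}
  have hw := weight_split n f {i}
  rw [Finset.sum_singleton] at hw
  have hu := avg_aff_sq n (fmean n f) (offJ (fcoef n f) {i})
  have hpt : ∀ x : Fin n → Bool,
      4 * |fcoef n f i| * ((|fmean n f + lin n (offJ (fcoef n f) {i}) x +
        lin n (onJ (fcoef n f) {i}) x| + |fmean n f + lin n (offJ (fcoef n f) {i}) x -
        lin n (onJ (fcoef n f) {i}) x|) / 2) ≤
      4 * fcoef n f i ^ 2 * (fun _ : Fin n → Bool => (1 : ℝ)) x +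
        1 * (fmean n f + lin n (offJ (fcoef n f) {i}) x) ^ 2 := by
    intro x
    have h := half_abs_le_sq (lin n (onJ (fcoef n f) {i}) x)
      (fmean n f + lin n (offJ (fcoef n f) {i}) x)
    rw [lin_on_single] at h ⊢
    rw [abs_mul, abs_sgn, mul_one, mul_pow, sgn_sq, mul_one] at h
    have e : |fcoef n f i * sgn (x i) + (fmean n f + lin n (offJ (fcoef n f) {i}) x)| +
        |fcoef n f i * sgn (x i) - (fmean n f + lin n (offJ (fcoef n f) {i}) x)| =
        |fmean n f + lin n (offJ (fcoef n f) {i}) x + fcoef n f i * sgn (x i)| +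
        |fmean n f + lin n (offJ (fcoef n f) {i}) x - fcoef n f i * sgn (x i)| := by
      rw [add_comm (fcoef n f i * sgn (x i)), abs_sub_comm (fcoef n f i * sgn (x i))]
    rw [e] at h
    linarith
  have h1 := avg_mono n _ _ hpt
  rw [avg_mul_left, avg_lin, avg_const, hS, hu, hw] at h1
  have hA : 0 ≤ 4 * |fcoef n f i| := by positivity
  have h2 := mul_le_mul_of_nonneg_left hL hA
  linarith

/-- Second singleton bound, through fourth moments:
`256 |c_i|^3 S ≤ 256 c_i^4 + 81 (S - c_i^2)^2`. -/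
lemma single_coord4 (n : ℕ) (f : (Fin n → Bool) → Bool) (i : Fin n) :
    256 * |fcoef n f i| ^ 3 * (1 - highWeight n f) ≤
      256 * fcoef n f i ^ 4 + 81 * (1 - highWeight n f - fcoef n f i ^ 2) ^ 2 := by
  have hL := mean_abs_ge n f
  have hS := abs_mean_split n f {i}
  have hw := weight_split n f {i}
  rw [Finset.sum_singleton] at hw
  have hu := avg_aff_four n (fmean n f) (offJ (fcoef n f) {i})
  have hpt : ∀ x : Fin n → Bool,
      256 * |fcoef n f i| ^ 3 * ((|fmean n f + lin n (offJ (fcoef n f) {i}) x +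
        lin n (onJ (fcoef n f) {i}) x| + |fmean n f + lin n (offJ (fcoef n f) {i}) x -
        lin n (onJ (fcoef n f) {i}) x|) / 2) ≤
      256 * fcoef n f i ^ 4 * (fun _ : Fin n → Bool => (1 : ℝ)) x +
        27 * (fmean n f + lin n (offJ (fcoef n f) {i}) x) ^ 4 := by
    intro x
    have h := half_abs_le_quartic (lin n (onJ (fcoef n f) {i}) x)
      (fmean n f + lin n (offJ (fcoef n f) {i}) x)
    rw [lin_on_single] at h ⊢
    have e4 : (fcoef n f i * sgn (x i)) ^ 4 = fcoef n f i ^ 4 := by
      have : (fcoef n f i * sgn (x i)) ^ 4 = fcoef n f i ^ 4 * (sgn (x i) ^ 2) ^ 2 := by ring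
      rw [this, sgn_sq]
      ring
    rw [abs_mul, abs_sgn, mul_one, e4] at h
    have e : |fcoef n f i * sgn (x i) + (fmean n f + lin n (offJ (fcoef n f) {i}) x)| +
        |fcoef n f i * sgn (x i) - (fmean n f + lin n (offJ (fcoef n f) {i}) x)| =
        |fmean n f + lin n (offJ (fcoef n f) {i}) x + fcoef n f i * sgn (x i)| +
        |fmean n f + lin n (offJ (fcoef n f) {i}) x - fcoef n f i * sgn (x i)| := by
      rw [add_comm (fcoef n f i * sgn (x i)), abs_sub_comm (fcoef n f i * sgn (x i))]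
    rw [e] at h
    linarith
  have h1 := avg_mono n _ _ hpt
  rw [avg_mul_left, avg_lin, avg_const, hS] at h1
  rw [hw] at hu
  have hA : 0 ≤ 256 * |fcoef n f i| ^ 3 := by positivity
  have h2 := mul_le_mul_of_nonneg_left hL hA
  linarith

/-- Singleton bound for the mean: `4 |mu| S ≤ 3 mu^2 + S`. -/
lemma single_mean (n : ℕ) (f : (Fin n → Bool) → Bool) :
    4 * |fmean n f| * (1 - highWeight n f) ≤ 3 * fmean n f ^ 2 + (1 - highWeight n f) := by
  have hL := mean_abs_ge n f
  have hS := abs_mean_split n f Finset.univ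
  rw [offJ_univ, onJ_univ] at hS
  simp only [lin_zero, add_zero] at hS
  obtain ⟨m5, -⟩ := moments n 1 0 (fun _ => 0) (fcoef n f) (fun j => zero_mul _)
  simp only [lin_zero, nsq_zero, add_zero, one_pow, one_mul, zero_add, ne_eq,
    OfNat.ofNat_ne_zero, not_false_eq_true, zero_pow] at m5
  have hpt : ∀ x : Fin n → Bool,
      4 * |fmean n f| * ((|fmean n f + lin n (fcoef n f) x| +
        |fmean n f - lin n (fcoef n f) x|) / 2) ≤
      4 * fmean n f ^ 2 * (fun _ : Fin n → Bool => (1 : ℝ)) x +
        1 * (lin n (fcoef n f) x) ^ 2 := by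
    intro x
    have h := half_abs_le_sq (fmean n f) (lin n (fcoef n f) x)
    linarith
  have h1 := avg_mono n _ _ hpt
  rw [avg_mul_left, avg_lin, avg_const, hS, m5] at h1
  have hA : 0 ≤ 4 * |fmean n f| := by positivity
  have h2 := mul_le_mul_of_nonneg_left hL hA
  have h3 : fmean n f ^ 2 + nsq n (fcoef n f) = 1 - highWeight n f := by
    unfold highWeight nsq
    ring
  linarith

end Vale.Agent.Lib.P322
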