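import Mathlib
import Vale.Agent.Lib.P322.Single
import Vale.Agent.Lib.P322.helper32.Moments6

namespace Vale.Agent.Lib.P322

open Finset

/-- A polynomial upper bound for the absolute value, touching it at `2/3` and `2`. -/
lemma abs_le_poly (y : ℝ) :
    4096 * |y| ≤ 1216 * 1 + 3760 * y ^ 2 + (-828) * y ^ 4 + 81 * y ^ 6 + 0 * 0 := by
  have h : 0 ≤ (3 * |y| - 2) ^ 2 * (|y| - 2) ^ 2 * (9 * |y| ^ 2 + 48 * |y| + 76) := by
    have := abs_nonneg y
    positivity
  have e2 : y ^ 2 = |y| ^ 2 := (sq_abs y).symm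
  have e4 : y ^ 4 = |y| ^ 4 := by
    have : y ^ 4 = (y ^ 2) ^ 2 := by ring
    rw [this, e2]
    ring
  have e6 : y ^ 6 = |y| ^ 6 := by
    have : y ^ 6 = (y ^ 2) ^ 3 := by ring
    rw [this, e2]
    ring
  rw [e2, e4, e6]
  have id : 1216 * 1 + 3760 * |y| ^ 2 + (-828) * |y| ^ 4 + 81 * |y| ^ 6 + 0 * 0 - 4096 * |y| =
      (3 * |y| - 2) ^ 2 * (|y| - 2) ^ 2 * (9 * |y| ^ 2 + 48 * |y| + 76) := by ring
  linarith

/-- Real-number core of the spread case. -/
lemma spread_real {S Q4 Q6 : ℝ} (hS1 : S ≤ 1) (hQ4 : 0 ≤ Q4) (hQ6 : Q6 ≤ 4 / 25 * Q4)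
    (h : 4096 * S ≤ 1216 + 3760 * S - 828 * (3 * S ^ 2 - 2 * Q4) +
      81 * (15 * S ^ 3 - 30 * S * Q4 + 16 * Q6)) : S ≤ 4 / 5 := by
  by_contra hcon
  rw [not_le] at hcon
  have h1 : Q4 * (2430 * S - 1656 - 1296 * (4 / 25)) ≥ 0 :=
    mul_nonneg hQ4 (by linarith)
  have h2 : 0 ≤ 1215 * S ^ 3 - 2484 * S ^ 2 - 336 * S + 1216 := by nlinarith
  have h3 : 0 ≤ (S - 4 / 5) * (1 - S) := mul_nonneg (by linarith) (by linarith)
  nlinarith [mul_nonneg h3 (by linarith : (0 : ℝ) ≤ S)]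

/-- Spread case: if the mean and all degree-one Fourier coefficients of a Boolean function are
at most `2/5` in absolute value, its Fourier weight at degree at most one is at most `4/5`. -/
theorem spread_bound (n : ℕ) (f : (Fin n → Bool) → Bool)
    (hm : fmean n f ^ 2 ≤ 4 / 25) (hc : ∀ j, fcoef n f j ^ 2 ≤ 4 / 25) :
    1 - highWeight n f ≤ 4 / 5 := by
  obtain ⟨m2, m4, m6⟩ := moments6 n (fmean n f) (fcoef n f)
  have hL := mean_abs_ge n f
  have hS : fmean n f ^ 2 + nsq n (fcoef n f) = 1 - highWeight n f := by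
    unfold highWeight nsq
    ring
  rw [hS] at m2 m4 m6
  have hpt := avg_mono n _ _ (fun x => abs_le_poly (fmean n f + lin n (fcoef n f) x))
  rw [avg_mul_left, avg_lin5, avg_const, avg_const, m2, m4, m6] at hpt
  have hQ4 : 0 ≤ fmean n f ^ 4 + ∑ j, fcoef n f j ^ 4 :=
    add_nonneg (by positivity) (Finset.sum_nonneg (fun j _ => by positivity))
  have hQ6 : fmean n f ^ 6 + ∑ j, fcoef n f j ^ 6 ≤
      4 / 25 * (fmean n f ^ 4 + ∑ j, fcoef n f j ^ 4) := by
    rw [mul_add, Finset.mul_sum]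
    have a1 : fmean n f ^ 6 ≤ 4 / 25 * fmean n f ^ 4 := by
      have : fmean n f ^ 6 = fmean n f ^ 2 * fmean n f ^ 4 := by ring
      rw [this]
      exact mul_le_mul_of_nonneg_right hm (by positivity)
    have a2 : ∑ j, fcoef n f j ^ 6 ≤ ∑ j, 4 / 25 * fcoef n f j ^ 4 := by
      refine Finset.sum_le_sum (fun j _ => ?_)
      have : fcoef n f j ^ 6 = fcoef n f j ^ 2 * fcoef n f j ^ 4 := by ring
      rw [this]
      exact mul_le_mul_of_nonneg_right (hc j) (by positivity)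
    linarith
  have hW := highWeight_nonneg n f
  refine spread_real (by linarith) hQ4 hQ6 ?_
  have h2 := mul_le_mul_of_nonneg_left hL (by norm_num : (0 : ℝ) ≤ 4096)
  linarith

end Vale.Agent.Lib.P322
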