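import Mathlib
import Vale.Agent.Lib.P322.Spread
import Vale.Agent.Lib.P322.NearDict
import Vale.Agent.Lib.P322.helper13.Biased2
import Vale.Agent.Lib.P322.helper13.Sharp

namespace Vale.Agent.Lib.P322

open Finset

/-- A generalized coordinate of absolute value in `[2/5, 2/3]` forces the weight at degree at
most one down to `4/5`. -/
lemma single_contra {A S : ℝ} (hA0 : 2 / 5 ≤ A) (hA1 : A ≤ 2 / 3) (hS : 4 / 5 < S)
    (h : 4 * A * S ≤ 3 * A ^ 2 + S) : False := by
  have h1 : (5 * A - 2) * (3 * A - 2) ≤ 0 :=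
    mul_nonpos_of_nonneg_of_nonpos (by linarith) (by linarith)
  have h2 : 0 < 4 * A - 1 := by linarith
  nlinarith [mul_pos h2 (by linarith : (0 : ℝ) < S - 4 / 5)]

lemma abs_ge_of_sq_ge {x c : ℝ} (hc : 0 ≤ c) (h : c ^ 2 ≤ x ^ 2) : c ≤ |x| := by
  rw [← sq_abs x] at h
  exact (sq_le_sq₀ hc (abs_nonneg x)).mp h

lemma abs_le_of_sq_le {x c : ℝ} (hc : 0 ≤ c) (h : x ^ 2 ≤ c ^ 2) : |x| ≤ c := by
  rw [← sq_abs x] at h
  exact (sq_le_sq₀ (abs_nonneg x) hc).mp h

/-- The Courtade-Kumar inequality for every Boolean function at every crossover probability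
in `[3/10, 1/2]`. -/
theorem ck_high_noise2 (n : ℕ) (f : (Fin n → Bool) → Bool) (e : ℝ) (he : 3 / 10 ≤ e)
    (he' : e ≤ 1 / 2) : mutualInfo (joint n e f) ≤ 1 - h2 e := by
  have h0 : 0 < e := by linarith
  have ht0 : 0 ≤ (1 - 2 * e) ^ 2 := sq_nonneg _
  have ht1 : (1 - 2 * e) ^ 2 ≤ 4 / 25 := by nlinarith
  have hW0 := highWeight_nonneg n f
  by_cases hfar : (1 - 2 * e) ^ 2 * (5 + (1 - 2 * e) ^ 2) / 6 ≤
      (1 - (1 - 2 * e) ^ 2) ^ 2 * highWeight n f
  · exact ck_of_highWeight2 n e h0 he' f hfar
  · rw [not_le] at hfar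
    have hS : 4 / 5 < 1 - highWeight n f := by
      by_contra hcon
      rw [not_lt] at hcon
      have k1 : (21 / 25 : ℝ) ^ 2 ≤ (1 - (1 - 2 * e) ^ 2) ^ 2 :=
        pow_le_pow_left₀ (by norm_num) (by linarith) 2
      have k2 : (21 / 25 : ℝ) ^ 2 * (1 / 5) ≤ (1 - (1 - 2 * e) ^ 2) ^ 2 * highWeight n f :=
        mul_le_mul k1 (by linarith) (by norm_num) (sq_nonneg _)
      have k3 : (1 - 2 * e) ^ 2 * (5 + (1 - 2 * e) ^ 2) / 6 ≤ 4 / 25 * (5 + 4 / 25) / 6 := by
        nlinarith
      norm_num at k2 k3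
      linarith
    have hsum : 1 - highWeight n f = fmean n f ^ 2 + ∑ j, fcoef n f j ^ 2 := by
      unfold highWeight
      ring
    have hle : ∀ i, fcoef n f i ^ 2 ≤ ∑ j, fcoef n f j ^ 2 := fun i =>
      Finset.single_le_sum (f := fun j => fcoef n f j ^ 2) (fun j _ => sq_nonneg _)
        (Finset.mem_univ i)
    by_cases hb : 4 / 9 ≤ fmean n f ^ 2
    · exact ck_of_biased2 n e h0.le he' f hb
    · rw [not_le] at hb
      have hmu : fmean n f ^ 2 < 4 / 25 := by
        by_contra hcon
        rw [not_lt] at hcon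
        have hA0 : 2 / 5 ≤ |fmean n f| :=
          abs_ge_of_sq_ge (by norm_num) (by norm_num; linarith)
        have hA1 : |fmean n f| ≤ 2 / 3 :=
          abs_le_of_sq_le (by norm_num) (by norm_num; linarith)
        have hs := single_mean n f
        rw [← sq_abs (fmean n f)] at hs
        exact single_contra hA0 hA1 hS hs
      by_cases hbig : ∃ i, 4 / 9 < fcoef n f i ^ 2
      · obtain ⟨i, hi⟩ := hbig
        have hA : 2 / 3 ≤ |fcoef n f i| :=
          abs_ge_of_sq_ge (by norm_num) (by norm_num; linarith)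
        have hA1 : |fcoef n f i| ≤ 1 := by
          apply abs_le_of_sq_le (by norm_num)
          have k1 := hle i
          have k2 := sq_nonneg (fmean n f)
          rw [one_pow]
          linarith
        have e2 : |fcoef n f i| ^ 2 = fcoef n f i ^ 2 := sq_abs _
        have e4 : |fcoef n f i| ^ 4 = fcoef n f i ^ 4 := by
          have : |fcoef n f i| ^ 4 = (|fcoef n f i| ^ 2) ^ 2 := by ring
          rw [this, e2]
          ring
        have hs2 := single_coord4 n f i
        rw [← e4, ← e2] at hs2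
        have hm : fmean n f ^ 2 ≤ 1 - highWeight n f - |fcoef n f i| ^ 2 := by
          rw [e2]
          have := hle i
          linarith
        have ha : coordShare n f i = |fcoef n f i| ^ 2 / (1 - fmean n f ^ 2) := by
          unfold coordShare
          rw [e2]
        exact ck_of_coord2 n e h0 he' f i
          (near_dictator_real ht0 ht1 hA hA1 (sq_nonneg _) hW0 hm hs2 ha
            (coordShare_le_one n f i))
      · by_cases hmid : ∃ i, 4 / 25 ≤ fcoef n f i ^ 2
        · obtain ⟨i, hi⟩ := hmid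
          have hi2 : fcoef n f i ^ 2 ≤ 4 / 9 := by
            by_contra hcon
            rw [not_le] at hcon
            exact hbig ⟨i, hcon⟩
          have hA0 : 2 / 5 ≤ |fcoef n f i| :=
            abs_ge_of_sq_ge (by norm_num) (by norm_num; linarith)
          have hA1 : |fcoef n f i| ≤ 2 / 3 :=
            abs_le_of_sq_le (by norm_num) (by norm_num; linarith)
          have hs := single_coord n f i
          rw [← sq_abs (fcoef n f i)] at hs
          exact (single_contra hA0 hA1 hS hs).elim
        · have hc : ∀ j, fcoef n f j ^ 2 ≤ 4 / 25 := by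
            intro j
            by_contra hcon
            rw [not_le] at hcon
            exact hmid ⟨j, hcon.le⟩
          have hsp := spread_bound n f hmu.le hc
          linarith

end Vale.Agent.Lib.P322
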